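import Mathlib

/-!
Cap volumes in a Euclidean ball by affine maps, and counting in a cubic grid.
-/

namespace Vale.Agent.P230

open MeasureTheory Metric

/-- Euclidean space of dimension `n`. -/
abbrev E (n : ℕ) := EuclideanSpace ℝ (Fin n)

variable {n : ℕ}

/-- Volume of the closed unit ball. -/
noncomputable def ballVol (n : ℕ) : ℝ := volume.real (closedBall (0 : E n) 1)

theorem ballVol_pos : 0 < ballVol n :=
  ENNReal.toReal_pos (measure_closedBall_pos _ _ one_pos).ne' measure_closedBall_lt_top.ne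

theorem vol_closedBall (x : E n) {r : ℝ} (hr : 0 ≤ r) :
    volume.real (closedBall x r) = r ^ n * ballVol n := by
  rw [measureReal_def, Measure.addHaar_closedBall' volume x hr, finrank_euclideanSpace_fin,
    ENNReal.toReal_mul, ENNReal.toReal_ofReal (by positivity)]
  rfl

/-- The cap of the unit ball in direction `e` at height `χ`. -/
def cap (e : E n) (χ : ℝ) : Set (E n) := {w | ‖w‖ ≤ 1 ∧ χ ≤ inner ℝ e w}

theorem cap_subset_ball (e : E n) (χ : ℝ) : cap e χ ⊆ closedBall 0 1 := fun w hw => by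
  simpa using hw.1

theorem cap_finite (e : E n) (χ : ℝ) : volume (cap e χ) < ⊤ :=
  (measure_mono (cap_subset_ball e χ)).trans_lt measure_closedBall_lt_top

theorem measurableSet_cap (e : E n) (χ : ℝ) : MeasurableSet (cap e χ) :=
  (measurableSet_le measurable_norm measurable_const).inter
    (measurableSet_le (f := fun _ : E n => χ) (g := fun w => inner ℝ e w) measurable_const
      (continuous_const.inner continuous_id).measurable)

theorem cap_mono (e : E n) {χ χ' : ℝ} (h : χ ≤ χ') :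
    volume.real (cap e χ') ≤ volume.real (cap e χ) :=
  measureReal_mono (fun _ hw => ⟨hw.1, h.trans hw.2⟩) (cap_finite e χ).ne

theorem cap_rot (e e' : E n) (he : ‖e‖ = ‖e'‖) (χ : ℝ) :
    volume.real (cap e χ) = volume.real (cap e' χ) := by
  set R := (ℝ ∙ (e - e'))ᗮ.reflection with hR
  have h1 : R e = e' := Submodule.reflection_sub he
  have h2 : R ⁻¹' cap e' χ = cap e χ := by
    ext w
    simp [cap, ← h1]
  rw [← h2, measureReal_def, measureReal_def,
    R.measurePreserving.measure_preimage (measurableSet_cap e' χ).nullMeasurableSet]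

theorem vol_image_diag (d : Fin n → ℝ) (b : E n) (S : Set (E n)) :
    volume ((fun w : E n => WithLp.toLp 2 (fun i => d i * w i) + b) '' S)
      = ENNReal.ofReal |∏ i, d i| * volume S := by
  let e := (WithLp.linearEquiv 2 ℝ (Fin n → ℝ)).symm
  let L : E n →ₗ[ℝ] E n :=
    (e : (Fin n → ℝ) →ₗ[ℝ] E n) ∘ₗ Matrix.toLin' (Matrix.diagonal d) ∘ₗ (e.symm : E n →ₗ[ℝ] _)
  have hL : ∀ w : E n, L w = WithLp.toLp 2 (fun i => d i * w i) := by
    intro w
    ext i
    simp [L, e, Matrix.mulVec_diagonal]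
  have h : (fun w : E n => WithLp.toLp 2 (fun i => d i * w i) + b) '' S
      = (fun x => x + b) '' (L '' S) := by
    rw [Set.image_image]
    simp only [hL]
  have hdet : LinearMap.det L = ∏ i, d i := by
    simp only [L]
    rw [LinearMap.det_conj, LinearMap.det_toLin', Matrix.det_diagonal]
  rw [h, Set.image_add_right, measure_preimage_add_right, Measure.addHaar_image_linearMap, hdet]

theorem sum_split (i₀ : Fin n) (w : E n) :
    w i₀ ^ 2 + ∑ i ∈ Finset.univ.erase i₀, w i ^ 2 = ‖w‖ ^ 2 := by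
  rw [EuclideanSpace.norm_sq_eq, ← Finset.add_sum_erase _ _ (Finset.mem_univ i₀)]
  simp

/-- A diagonal affine image of a cap inside another cap gives a volume comparison. -/
theorem cap_compare (i₀ : Fin n) (α β s χ χ' : ℝ) (hα : 0 ≤ α) (hs : 0 ≤ s)
    (h : ∀ t q : ℝ, 0 ≤ q → t ^ 2 + q ≤ 1 → χ ≤ t →
      (α * t + β) ^ 2 + s ^ 2 * q ≤ 1 ∧ χ' ≤ α * t + β) :
    α * s ^ (n - 1) * volume.real (cap (EuclideanSpace.single i₀ 1) χ)
      ≤ volume.real (cap (EuclideanSpace.single i₀ 1) χ') := by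
  let d : Fin n → ℝ := fun i => if i = i₀ then α else s
  let b : E n := EuclideanSpace.single i₀ β
  set f := fun w : E n => WithLp.toLp 2 (fun i => d i * w i) + b
  have hsub : f '' cap (EuclideanSpace.single i₀ 1) χ ⊆ cap (EuclideanSpace.single i₀ 1) χ' := by
    rintro _ ⟨w, ⟨hw1, hw2⟩, rfl⟩
    rw [EuclideanSpace.inner_single_left, map_one, one_mul] at hw2
    have hsq : ‖w‖ ^ 2 ≤ 1 := by nlinarith [norm_nonneg w]
    rw [← sum_split i₀ w] at hsq
    obtain ⟨h1, h2⟩ := h (w i₀) _ (Finset.sum_nonneg fun i _ => sq_nonneg (w i)) hsq hw2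
    have e0 : f w i₀ = α * w i₀ + β := by simp [f, d, b]
    have e1 : ∀ i ∈ Finset.univ.erase i₀, f w i ^ 2 = s ^ 2 * w i ^ 2 := by
      intro i hi
      have hne : i ≠ i₀ := (Finset.mem_erase.1 hi).1
      simp [f, d, b, hne]; ring
    refine ⟨?_, ?_⟩
    · have : ‖f w‖ ^ 2 ≤ 1 := by
        rw [← sum_split i₀ (f w), e0, Finset.sum_congr rfl e1, ← Finset.mul_sum]; exact h1
      nlinarith [norm_nonneg (f w)]
    · rw [EuclideanSpace.inner_single_left, map_one, one_mul, e0]; exact h2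
  have hd : ∏ i, d i = α * s ^ (n - 1) := by
    rw [← Finset.mul_prod_erase _ _ (Finset.mem_univ i₀)]
    have : ∀ i ∈ Finset.univ.erase i₀, d i = s := fun i hi => if_neg (Finset.mem_erase.1 hi).1
    rw [Finset.prod_congr rfl this, Finset.prod_const, Finset.card_erase_of_mem (Finset.mem_univ _),
      Finset.card_univ, Fintype.card_fin]
    simp [d]
  have h1 := measureReal_mono hsub (cap_finite _ χ').ne
  rwa [measureReal_def, vol_image_diag, hd, abs_of_nonneg (by positivity), ENNReal.toReal_mul,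
    ENNReal.toReal_ofReal (by positivity)] at h1

theorem cap_low (e : E n) (he : ‖e‖ = 1) (hn : 0 < n) {c χ : ℝ} (hc : c < 1) (hcχ : c ≤ χ)
    (hχ : χ ≤ 1) : Real.sqrt ((1 - χ) / (1 - c)) ^ (n + 1) * volume.real (cap e c)
      ≤ volume.real (cap e χ) := by
  let e0 : E n := EuclideanSpace.single ⟨0, hn⟩ (1:ℝ)
  have he0 : ‖e‖ = ‖e0‖ := by simp [e0, he]
  rw [cap_rot e e0 he0, cap_rot e e0 he0]
  set ρ := (1 - χ) / (1 - c) with hρ
  have h1c : 0 < 1 - c := by linarith
  have hρ0 : 0 ≤ ρ := div_nonneg (by linarith) h1c.le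
  have hρ1 : ρ ≤ 1 := (div_le_one h1c).2 (by linarith)
  have hρc : ρ * (1 - c) = 1 - χ := by rw [hρ]; field_simp
  have hpow : Real.sqrt ρ ^ (n + 1) = ρ * Real.sqrt ρ ^ (n - 1) := by
    rw [show n + 1 = 2 + (n - 1) by omega, pow_add, Real.sq_sqrt hρ0]
  rw [hpow]
  refine cap_compare ⟨0, hn⟩ ρ (1 - ρ) (Real.sqrt ρ) c χ hρ0 (Real.sqrt_nonneg _)
    fun t q hq htq hct => ⟨?_, ?_⟩
  · rw [Real.sq_sqrt hρ0]
    nlinarith [mul_nonneg hρ0 (show 0 ≤ 1 - t ^ 2 - q by linarith),
      mul_nonneg (mul_nonneg hρ0 (sub_nonneg.2 hρ1)) (sq_nonneg (1 - t))]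
  · nlinarith [mul_le_mul_of_nonneg_left hct hρ0]

theorem cap_up (e : E n) (he : ‖e‖ = 1) (hn : 0 < n) {c Δ : ℝ} (hc : 0 ≤ c) (hΔ : 0 ≤ Δ) :
    Real.sqrt (1 + Δ * c) ^ (n - 1) * volume.real (cap e (c + Δ)) ≤ volume.real (cap e c) := by
  let e0 : E n := EuclideanSpace.single ⟨0, hn⟩ (1:ℝ)
  have he0 : ‖e‖ = ‖e0‖ := by simp [e0, he]
  rw [cap_rot e e0 he0, cap_rot e e0 he0, ← one_mul (Real.sqrt (1 + Δ * c) ^ (n - 1))]
  refine cap_compare ⟨0, hn⟩ 1 (-Δ) _ (c + Δ) c zero_le_one (Real.sqrt_nonneg _)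
    fun t q hq htq hct => ⟨?_, by linarith⟩
  rw [Real.sq_sqrt (by positivity)]
  have h1 : Δ + c * (1 - t ^ 2) ≤ 2 * t := by nlinarith [mul_nonneg hc (sq_nonneg t)]
  nlinarith [mul_le_mul_of_nonneg_left h1 hΔ,
    mul_nonneg (show 0 ≤ 1 + Δ * c by positivity) (show 0 ≤ 1 - t ^ 2 - q by linarith)]

theorem cap_pos (e : E n) (he : ‖e‖ = 1) {c : ℝ} (hc0 : 0 ≤ c) (hc : c < 1) :
    0 < volume.real (cap e c) := by
  have hsub : closedBall (((1 + c) / 2) • e) ((1 - c) / 2) ⊆ cap e c := by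
    intro w hw
    rw [mem_closedBall, dist_eq_norm] at hw
    refine ⟨?_, ?_⟩
    · have := norm_le_norm_add_norm_sub' w (((1 + c) / 2) • e)
      rw [norm_smul, he, Real.norm_eq_abs, abs_of_nonneg (by linarith)] at this
      linarith
    · have h2 := abs_real_inner_le_norm e (w - ((1 + c) / 2) • e)
      rw [he, one_mul, inner_sub_right, real_inner_smul_right, real_inner_self_eq_norm_sq, he] at h2
      have := (abs_le.1 (h2.trans hw)).1
      linarith
  refine lt_of_lt_of_le ?_ (measureReal_mono hsub (cap_finite e c).ne)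
  exact ENNReal.toReal_pos (measure_closedBall_pos _ _ (by linarith)).ne'
    measure_closedBall_lt_top.ne

theorem dist_sq_le_of_inner (a z : E n) {c R : ℝ} (hc : 0 < c) (ha : ‖a‖ ≤ 1)
    (hz : ‖z‖ ≤ R) (haz : c ≤ inner ℝ a z) :
    ‖z - (c / ‖a‖ ^ 2) • a‖ ^ 2 ≤ R ^ 2 - c ^ 2 := by
  have ha0 : 0 < ‖a‖ := by
    rcases (norm_nonneg a).eq_or_lt with h | h
    · exact absurd haz (by simp [norm_eq_zero.1 h.symm, hc])
    · exact h
  have hR : ‖z‖ ^ 2 ≤ R ^ 2 := pow_le_pow_left₀ (norm_nonneg z) hz 2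
  set A := ‖a‖ ^ 2 with hA
  have hA0 : 0 < A := by positivity
  have hA1 : A ≤ 1 := pow_le_one₀ ha0.le ha
  rw [norm_sub_sq_real, real_inner_smul_right, norm_smul, mul_pow, Real.norm_eq_abs, sq_abs,
    real_inner_comm, ← hA]
  have h1 : (c / A) ^ 2 * A = c * (c / A) := by field_simp
  have h2 : c / A * c ≤ c / A * inner ℝ a z := mul_le_mul_of_nonneg_left haz (by positivity)
  have h3 : c ≤ c / A := le_div_self hc.le hA0 hA1
  nlinarith

/-- Mesh of the grid. -/
noncomputable def mesh (n : ℕ) : ℝ := 1 / (n : ℝ) ^ 4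

/-- The grid point with given integer coordinates. -/
noncomputable def gpt (k : Fin n → ℤ) : E n := WithLp.toLp 2 (fun i => mesh n * k i)

/-- Membership in the grid. -/
def IsGrid (g : E n) : Prop := ∃ k, g = gpt k

/-- Rounding to the grid. -/
noncomputable def rnd (x : E n) : E n := gpt fun i => ⌊x i / mesh n⌋

theorem isGrid_rnd (x : E n) : IsGrid (rnd x) := ⟨_, rfl⟩

theorem IsGrid.sub {g g' : E n} (h : IsGrid g) (h' : IsGrid g') : IsGrid (g - g') := by
  obtain ⟨k, rfl⟩ := h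
  obtain ⟨k', rfl⟩ := h'
  refine ⟨k - k', ?_⟩
  ext i
  simp [gpt, mul_sub]

theorem mesh_pos (hn : 0 < n) : 0 < mesh n := by
  have : (0:ℝ) < n := by exact_mod_cast hn
  unfold mesh; positivity

theorem gpt_injective (hn : 0 < n) : Function.Injective (gpt (n := n)) := by
  intro k k' h
  funext i
  have := congrArg (fun g : E n => g i) h
  simp only [gpt] at this
  exact_mod_cast mul_left_cancel₀ (mesh_pos hn).ne' this

theorem abs_coord_le_norm (x : E n) (i : Fin n) : |x i| ≤ ‖x‖ := by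
  rw [← Real.norm_eq_abs]; exact PiLp.norm_apply_le x i

theorem norm_rnd_sub_le (hn : 0 < n) (x : E n) : ‖rnd x - x‖ ≤ n * mesh n := by
  have hm := mesh_pos hn
  have h : ∀ i, ((rnd x - x) i) ^ 2 ≤ mesh n ^ 2 := by
    intro i
    have h1 := Int.floor_le (x i / mesh n)
    have h2 := Int.lt_floor_add_one (x i / mesh n)
    rw [le_div_iff₀ hm] at h1
    rw [div_lt_iff₀ hm] at h2
    have e : (rnd x - x) i = mesh n * ⌊x i / mesh n⌋ - x i := by simp [rnd, gpt]
    rw [e]
    nlinarith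
  rw [EuclideanSpace.norm_eq]
  refine Real.sqrt_le_iff.2 ⟨by positivity, ?_⟩
  calc ∑ i, ‖(rnd x - x) i‖ ^ 2 ≤ ∑ _i : Fin n, mesh n ^ 2 := by
        refine Finset.sum_le_sum fun i _ => ?_
        rw [Real.norm_eq_abs, sq_abs]; exact h i
    _ = n * mesh n ^ 2 := by simp
    _ ≤ _ := by
        have : (1:ℝ) ≤ n := by exact_mod_cast hn
        nlinarith [sq_nonneg (mesh n)]

theorem measurable_rnd : Measurable (rnd (n := n)) := by
  refine (WithLp.measurable_toLp _ _).comp (measurable_pi_lambda _ fun i => ?_)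
  refine Measurable.const_mul ?_ _
  exact (measurable_from_top.comp Int.measurable_floor).comp
    (((measurable_pi_apply i).comp (WithLp.measurable_ofLp _ _)).div_const _)

theorem vol_fibre (hn : 0 < n) {g : E n} (hg : IsGrid g) :
    volume (rnd ⁻¹' {g}) = ENNReal.ofReal (mesh n ^ n) := by
  have hm := mesh_pos hn
  obtain ⟨k, rfl⟩ := hg
  have e : rnd ⁻¹' {gpt k} = WithLp.ofLp ⁻¹'
      (Set.univ.pi fun i => Set.Ico (mesh n * k i) (mesh n * (k i + 1))) := by
    ext x
    simp only [Set.mem_preimage, Set.mem_singleton_iff, rnd, (gpt_injective hn).eq_iff, funext_iff,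
      Int.floor_eq_iff, Set.mem_pi, Set.mem_univ, true_implies, Set.mem_Ico, le_div_iff₀ hm,
      div_lt_iff₀ hm, mul_comm (mesh n)]
  rw [e, (PiLp.volume_preserving_ofLp (Fin n)).measure_preimage
    (MeasurableSet.univ_pi fun i => measurableSet_Ico).nullMeasurableSet, Real.volume_pi_Ico]
  rw [Finset.prod_congr rfl (fun i _ => by rw [← mul_sub, add_sub_cancel_left, mul_one]),
    Finset.prod_const, Finset.card_univ, Fintype.card_fin, ENNReal.ofReal_pow hm.le]

theorem vol_preimage_rnd (hn : 0 < n) (T : Finset (E n)) (hT : ∀ g ∈ T, IsGrid g) :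
    volume (rnd ⁻¹' (T : Set (E n))) = ENNReal.ofReal (T.card * mesh n ^ n) := by
  rw [← sum_measure_preimage_singleton T fun g _ => measurable_rnd (measurableSet_singleton g),
    Finset.sum_congr rfl (fun g hg => vol_fibre hn (hT g hg)), Finset.sum_const, nsmul_eq_mul,
    ENNReal.ofReal_mul (Nat.cast_nonneg _), ENNReal.ofReal_natCast]

theorem grid_count_le (hn : 0 < n) (T : Finset (E n)) (hT : ∀ g ∈ T, IsGrid g) (q : E n) {r : ℝ}
    (hr : 0 ≤ r) (hTr : ∀ g ∈ T, ‖g - q‖ ≤ r) :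
    (T.card : ℝ) * mesh n ^ n ≤ (r + n * mesh n) ^ n * ballVol n := by
  have hm := mesh_pos hn
  have hsub : rnd ⁻¹' (T : Set (E n)) ⊆ closedBall q (r + n * mesh n) := by
    intro x hx
    have h1 := hTr _ hx
    have h2 := norm_rnd_sub_le hn x
    rw [mem_closedBall, dist_eq_norm]
    have := norm_sub_le_norm_sub_add_norm_sub x (rnd x) q
    rw [norm_sub_rev x (rnd x)] at this
    linarith
  have h := measureReal_mono (μ := volume) hsub measure_closedBall_lt_top.ne
  rwa [measureReal_def, vol_preimage_rnd hn T hT, ENNReal.toReal_ofReal (by positivity),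
    vol_closedBall q (by positivity)] at h

theorem grid_count_ge (hn : 0 < n) (T : Finset (E n)) (hT : ∀ g ∈ T, IsGrid g) (S : Set (E n))
    (hS : ∀ x ∈ S, rnd x ∈ T) : volume.real S ≤ (T.card : ℝ) * mesh n ^ n := by
  have hm := mesh_pos hn
  have h := measureReal_mono (μ := volume) (show S ⊆ rnd ⁻¹' (T : Set (E n)) from hS)
    (by rw [vol_preimage_rnd hn T hT]; exact ENNReal.ofReal_ne_top)
  refine h.trans_eq ?_
  rw [measureReal_def, vol_preimage_rnd hn T hT, ENNReal.toReal_ofReal (by positivity)]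

/-- All grid points of sup norm at most four. -/
noncomputable def gridBox (n : ℕ) : Finset (E n) :=
  open Classical in
  (Fintype.piFinset fun _ : Fin n => Finset.Icc (-(4 * (n : ℤ) ^ 4)) (4 * (n : ℤ) ^ 4)).image gpt

theorem mem_gridBox (hn : 0 < n) {g : E n} (hg : IsGrid g) (h : ‖g‖ ≤ 4) : g ∈ gridBox n := by
  obtain ⟨k, rfl⟩ := hg
  unfold gridBox
  refine Finset.mem_image.2 ⟨k, Fintype.mem_piFinset.2 fun i => ?_, rfl⟩
  have hn4 : (0:ℝ) < (n:ℝ) ^ 4 := by
    have : (0:ℝ) < n := by exact_mod_cast hn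
    positivity
  have h1 := (abs_coord_le_norm (gpt k) i).trans h
  simp only [gpt, mesh] at h1
  rw [abs_mul, abs_of_pos (by positivity : (0:ℝ) < 1 / (n:ℝ) ^ 4), one_div, inv_mul_le_iff₀ hn4]
    at h1
  rw [Finset.mem_Icc]
  obtain ⟨ha, hb⟩ := abs_le.1 h1
  constructor
  · have : ((-(4 * (n : ℤ) ^ 4) : ℤ) : ℝ) ≤ (k i : ℝ) := by push_cast; linarith
    exact_mod_cast this
  · have : (k i : ℝ) ≤ ((4 * (n : ℤ) ^ 4 : ℤ) : ℝ) := by push_cast; linarith
    exact_mod_cast this

theorem isGrid_of_mem_gridBox {g : E n} (hg : g ∈ gridBox n) : IsGrid g := by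
  classical
  unfold gridBox at hg
  obtain ⟨k, -, rfl⟩ := Finset.mem_image.1 hg
  exact ⟨k, rfl⟩

theorem card_gridBox (hn : 0 < n) : (gridBox n).card ≤ (9 * n ^ 4) ^ n := by
  classical
  unfold gridBox
  refine Finset.card_image_le.trans ?_
  rw [Fintype.card_piFinset, Finset.prod_const, Finset.card_univ, Fintype.card_fin, Int.card_Icc]
  refine Nat.pow_le_pow_left ?_ n
  have h1 : 1 ≤ n ^ 4 := Nat.one_le_pow 4 n hn
  rw [Int.toNat_le]
  push_cast
  have : (1:ℤ) ≤ (n:ℤ) ^ 4 := by exact_mod_cast h1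
  linarith

end Vale.Agent.P230
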