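import Mathlib
import Vale.Agent.P230.Geometry

/-!
Parameters of the construction and the inequalities valid in large dimension.
-/

namespace Vale.Agent.P230

open Filter Asymptotics Topology

/-- Cap height. -/
noncomputable def cc : ℝ := 999 / 1000

/-- Rounding margin. -/
noncomputable def eta (n : ℕ) : ℝ := 1 / (n : ℝ) ^ 2

/-- Depth of the shell. -/
noncomputable def uD (n : ℕ) : ℝ := 4 * Real.log n / n

/-- Separation distance. -/
noncomputable def del (n : ℕ) : ℝ := 1 / Real.sqrt (Real.sqrt n)

/-- Mean number of atoms in a boundary cap. -/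
noncomputable def gz (n : ℕ) : ℝ := (n : ℝ) ^ (24000 : ℕ)

/-- Lower bound for the number of atoms in a shell cap. -/
noncomputable def gmin (n : ℕ) : ℝ := (n : ℝ) ^ (14000 : ℕ)

/-- Upper bound for the number of atoms in a shell cap. -/
noncomputable def gmax (n : ℕ) : ℝ := 10 * gz n

/-- Probability that an atom is present. -/
noncomputable def lam (n : ℕ) : ℝ := 1 / (4 * gz n)

theorem tendsto_log_div : Tendsto (fun n : ℕ => Real.log n / n) atTop (𝓝 0) :=
  (Real.isLittleO_log_id_atTop.tendsto_div_nhds_zero).comp tendsto_natCast_atTop_atTop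

theorem tendsto_uD : Tendsto uD atTop (𝓝 0) := by
  have := tendsto_log_div.const_mul 4
  rw [mul_zero] at this
  exact this.congr fun n => by unfold uD; ring

theorem log_le_sqrt {x : ℝ} (hx : 0 < x) : Real.log x ≤ 2 * Real.sqrt x := by
  have h := Real.log_le_sub_one_of_pos (Real.sqrt_pos.2 hx)
  rw [Real.log_sqrt hx.le] at h
  linarith

theorem eventually_pow_ge (k : ℕ) (hk : k ≠ 0) (K : ℝ) :
    ∀ᶠ n : ℕ in atTop, K ≤ (n : ℝ) ^ k :=
  ((tendsto_pow_atTop (α := ℝ) hk).comp tendsto_natCast_atTop_atTop).eventually_ge_atTop K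

theorem eventually_poly_le_exp_sqrt (k : ℕ) (a : ℝ) (ha : 0 < a) :
    ∀ᶠ n : ℕ in atTop, (n : ℝ) ^ k ≤ Real.exp (a * Real.sqrt n) := by
  have h := (Real.tendsto_exp_div_pow_atTop (2 * k)).comp
    ((Real.tendsto_sqrt_atTop.comp tendsto_natCast_atTop_atTop).const_mul_atTop ha)
  filter_upwards [h.eventually_ge_atTop ((a ^ (2 * k))⁻¹), eventually_ge_atTop 1] with n hn h1
  have hn0 : (0:ℝ) < n := by exact_mod_cast h1
  have hpos : 0 < (a * Real.sqrt n) ^ (2 * k) := by positivity
  simp only [Function.comp] at hn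
  rw [le_div_iff₀ hpos] at hn
  refine le_trans (le_of_eq ?_) hn
  rw [mul_pow, pow_mul (Real.sqrt n), Real.sq_sqrt hn0.le]
  field_simp

/-- Basic facts in large dimension. -/
structure Large (n : ℕ) : Prop where
  hn : 100 ≤ n
  hu : uD n ≤ 1 / 100000

theorem eventually_large : ∀ᶠ n in atTop, Large n := by
  filter_upwards [eventually_ge_atTop 100, tendsto_uD.eventually_le_const (by norm_num : (0:ℝ) < 1 / 100000)]
    with n h1 h2 using ⟨h1, h2⟩

variable {n : ℕ}

theorem Large.npos (h : Large n) : 0 < n := lt_of_lt_of_le (by norm_num) h.hn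

theorem Large.npos' (h : Large n) : (0 : ℝ) < n := by exact_mod_cast h.npos

theorem Large.ge' (h : Large n) : (100 : ℝ) ≤ n := by exact_mod_cast h.hn

theorem Large.uD_nonneg (h : Large n) : 0 ≤ uD n := by
  have := Real.log_nonneg (show (1:ℝ) ≤ n by linarith [h.ge'])
  unfold uD; positivity

theorem Large.n_uD (h : Large n) : (n : ℝ) * uD n = 4 * Real.log n := by
  have := h.npos'
  unfold uD; field_simp

theorem Large.eta_pos (h : Large n) : 0 < eta n := by
  have := h.npos'
  unfold eta; positivity

theorem Large.n_eta (h : Large n) : (n : ℝ) * eta n ≤ 1 / 100 := by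
  have h' := h.npos'
  have : (n : ℝ) * eta n = 1 / n := by unfold eta; field_simp
  rw [this]
  exact one_div_le_one_div_of_le (by norm_num) h.ge'

theorem Large.eta_small (h : Large n) : eta n ≤ 1 / 10000 := by
  unfold eta
  exact one_div_le_one_div_of_le (by norm_num) (by nlinarith [h.ge'])

theorem Large.mesh_small (h : Large n) : 2 * ((n : ℝ) * mesh n) ≤ eta n := by
  have h' := h.npos'
  have h2 : (2:ℝ) ≤ n := by linarith [h.ge']
  unfold eta mesh
  rw [show 2 * ((n : ℝ) * (1 / (n : ℝ) ^ 4)) = (2 / n) * (1 / (n : ℝ) ^ 2) by field_simp]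
  refine mul_le_of_le_one_left (by positivity) ((div_le_one h').2 h2)

theorem Large.del_sq (h : Large n) : del n ^ 2 = 1 / Real.sqrt n := by
  unfold del
  rw [div_pow, one_pow, Real.sq_sqrt (Real.sqrt_nonneg _)]

theorem Large.del_pos (h : Large n) : 0 < del n := by
  have := h.npos'
  unfold del; positivity

theorem Large.gz_one_le (h : Large n) : 1 ≤ gz n :=
  one_le_pow₀ (by linarith [h.ge'])

theorem Large.lam_pos (h : Large n) : 0 < lam n := by
  have := h.gz_one_le
  unfold lam; positivity

theorem Large.lam_le_one (h : Large n) : lam n ≤ 1 := by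
  have := h.gz_one_le
  unfold lam
  rw [div_le_one (by positivity)]
  linarith

theorem Large.lam_gmax (h : Large n) : lam n * gmax n = 5 / 2 := by
  have := h.gz_one_le
  unfold lam gmax; field_simp; ring

theorem Large.gmin_pos (h : Large n) : 0 < gmin n := by
  have := h.npos'
  unfold gmin; positivity

end Vale.Agent.P230
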