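import Mathlib
import Vale.Agent.P230.Geometry
import Vale.Agent.P230.Params

/-!
Random choice of the atoms: every shell cap holds many atoms, far caps share few.
-/

namespace Vale.Agent.P230

open MeasureTheory Metric Finset Filter

variable {n : ℕ}

/-- The atoms whose closed half space cuts off a test point with margin. -/
noncomputable def cutSet {M : ℕ} (a : Fin M → E n) (z : E n) : Finset (Fin M) :=
  open Classical in univ.filter (fun j => cc + eta n ≤ inner ℝ (a j) z)

/-- Uniform probability measure on the unit ball. -/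
noncomputable def unifBall (n : ℕ) : Measure (E n) :=
  ProbabilityTheory.cond volume (closedBall (0 : E n) 1)

instance : IsProbabilityMeasure (unifBall n) :=
  ProbabilityTheory.cond_isProbabilityMeasure_of_finite
    (measure_closedBall_pos _ _ one_pos).ne' measure_closedBall_lt_top.ne

theorem unifBall_real (P : Set (E n)) :
    (unifBall n).real P = volume.real (closedBall (0 : E n) 1 ∩ P) / ballVol n := by
  rw [unifBall, measureReal_def, ProbabilityTheory.cond_apply measurableSet_closedBall,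
    ENNReal.toReal_mul, ENNReal.toReal_inv, ← div_eq_inv_mul]
  rfl

/-- Number of coordinates of a tuple lying in a set. -/
noncomputable def hits {M : ℕ} (P : Set (E n)) (a : Fin M → E n) : ℝ :=
  ∑ j, P.indicator (fun _ => (1 : ℝ)) (a j)

theorem hits_eq {M : ℕ} (P : Set (E n)) (a : Fin M → E n) [DecidablePred (· ∈ P)] :
    hits P a = ((univ.filter (fun j => a j ∈ P)).card : ℝ) := by
  rw [hits, ← Finset.sum_boole]
  exact sum_congr rfl fun j _ => Set.indicator_apply P _ _

theorem integrable_exp_hits (M : ℕ) {P : Set (E n)} (hP : MeasurableSet P) (t s : ℝ) :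
    Integrable (fun a : Fin M → E n => Real.exp (t * hits P a + s))
      (Measure.pi fun _ => unifBall n) := by
  have h : Measurable (fun a : Fin M → E n => hits P a) := Finset.measurable_sum _ fun j _ =>
    (measurable_const.indicator hP).comp (measurable_pi_apply j)
  refine Integrable.of_bound ((Real.measurable_exp.comp
    ((h.const_mul t).add_const s)).aestronglyMeasurable) (Real.exp (|t| * M + |s|))
    (ae_of_all _ fun a => ?_)
  rw [Real.norm_eq_abs, Real.abs_exp]
  refine Real.exp_le_exp.2 ?_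
  have h1 : |hits P a| ≤ M := by
    refine (abs_sum_le_sum_abs _ _).trans ?_
    calc ∑ j, |P.indicator (fun _ => (1:ℝ)) (a j)| ≤ ∑ _j : Fin M, (1:ℝ) :=
          sum_le_sum fun j _ => by by_cases hh : a j ∈ P <;> simp [hh]
      _ = M := by simp
  have h2 : t * hits P a ≤ |t| * M :=
    (le_abs_self _).trans (by rw [abs_mul]; exact mul_le_mul_of_nonneg_left h1 (abs_nonneg t))
  linarith [le_abs_self s]

theorem integral_exp_hits_le (M : ℕ) {P : Set (E n)} (hP : MeasurableSet P) (t s : ℝ) :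
    ∫ a, Real.exp (t * hits P a + s) ∂(Measure.pi fun _ : Fin M => unifBall n)
      ≤ Real.exp (M * (unifBall n).real P * (Real.exp t - 1) + s) := by
  have e : ∀ a : Fin M → E n, Real.exp (t * hits P a + s)
      = Real.exp s * ∏ j, (fun x => 1 + P.indicator (fun _ => Real.exp t - 1) x) (a j) := by
    intro a
    rw [Real.exp_add, mul_comm (Real.exp s), hits, mul_sum, Real.exp_sum]
    congr 1
    refine prod_congr rfl fun j _ => ?_
    by_cases hh : a j ∈ P <;> simp [hh]
  simp_rw [e]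
  rw [integral_const_mul, integral_fintype_prod_eq_prod (μ := fun _ : Fin M => unifBall n)
    (fun _ x => 1 + P.indicator (fun _ => Real.exp t - 1) x), prod_const, card_univ,
    Fintype.card_fin]
  have hi : ∫ x, (1 + P.indicator (fun _ => Real.exp t - 1) x) ∂(unifBall n)
      = 1 + (unifBall n).real P * (Real.exp t - 1) := by
    rw [integral_add (integrable_const 1) ((integrable_const _).indicator hP),
      integral_indicator_const _ hP]
    simp
  rw [hi, Real.exp_add, mul_comm (Real.exp _) (Real.exp s)]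
  refine mul_le_mul_of_nonneg_left ?_ (Real.exp_pos s).le
  have h0 : 0 ≤ 1 + (unifBall n).real P * (Real.exp t - 1) := by
    have h1 : (unifBall n).real P ≤ 1 := measureReal_le_one
    have h2 : 0 ≤ (unifBall n).real P := measureReal_nonneg
    nlinarith [Real.exp_pos t, mul_nonneg h2 (Real.exp_pos t).le]
  calc (1 + (unifBall n).real P * (Real.exp t - 1)) ^ M
      ≤ Real.exp ((unifBall n).real P * (Real.exp t - 1)) ^ M := by
        refine pow_le_pow_left₀ h0 ?_ M
        linarith [Real.add_one_le_exp ((unifBall n).real P * (Real.exp t - 1))]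
    _ = _ := by rw [← Real.exp_nat_mul]; ring_nf

/-- The region of atoms cutting off `z`. -/
def region (z : E n) : Set (E n) := {a | ‖a‖ ≤ 1 ∧ cc + eta n ≤ inner ℝ a z}

theorem measurableSet_region (z : E n) : MeasurableSet (region z) :=
  (measurableSet_le measurable_norm measurable_const).inter
    (measurableSet_le (f := fun _ : E n => cc + eta n) (g := fun a => inner ℝ a z) measurable_const
      (continuous_id.inner continuous_const).measurable)

theorem region_le_cap (z : E n) (χ : ℝ) (e : E n) (h : ∀ a ∈ region z, χ ≤ inner ℝ e a) :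
    (unifBall n).real (region z) ≤ volume.real (cap e χ) / ballVol n := by
  rw [unifBall_real]
  refine div_le_div_of_nonneg_right ?_ ballVol_pos.le
  exact measureReal_mono (fun a ha => ⟨ha.2.1, h a ha.2⟩) (cap_finite e χ).ne

theorem inner_unit (z a : E n) (hz : 0 < ‖z‖) :
    inner ℝ (‖z‖⁻¹ • z) a = inner ℝ a z / ‖z‖ := by
  rw [real_inner_smul_left, real_inner_comm, div_eq_inv_mul]

theorem norm_unit (z : E n) (hz : 0 < ‖z‖) : ‖‖z‖⁻¹ • z‖ = 1 :=
  norm_smul_inv_norm (norm_pos_iff.1 hz)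

theorem region_real_eq (z : E n) (hz : 0 < ‖z‖) :
    (unifBall n).real (region z)
      = volume.real (cap (‖z‖⁻¹ • z) ((cc + eta n) / ‖z‖)) / ballVol n := by
  rw [unifBall_real]
  congr 2
  ext a
  simp only [Set.mem_inter_iff, mem_closedBall, dist_zero_right, region, cap, Set.mem_ofPred_eq,
    inner_unit z a hz, div_le_div_iff_of_pos_right hz]
  exact ⟨fun h => h.2, fun h => ⟨h.1, h⟩⟩

theorem shell_pow_lower (L : Large n) {z : E n} (hz1 : 1 - uD n ≤ ‖z‖) (hz2 : ‖z‖ ≤ 1 + eta n) :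
    cc ≤ (cc + eta n) / ‖z‖ ∧ (cc + eta n) / ‖z‖ ≤ 1 ∧
      Real.exp (-(1000 + 2205 * ((n : ℝ) * (1 + eta n - ‖z‖)))) ≤
        Real.sqrt ((1 - (cc + eta n) / ‖z‖) / (1 - cc)) ^ (n + 1) := by
  have hη := L.eta_pos
  have hη2 := L.eta_small
  have hu := L.hu
  have hu0 := L.uD_nonneg
  have hn := L.ge'
  set d := 1 + eta n - ‖z‖ with hd
  have hd0 : 0 ≤ d := by rw [hd]; linarith
  have hzpos : 0 < ‖z‖ := by linarith
  set χ := (cc + eta n) / ‖z‖ with hχ
  have hχmul : χ * ‖z‖ = cc + eta n := div_mul_cancel₀ _ hzpos.ne'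
  have hcc : cc = 999 / 1000 := rfl
  have h1 : cc ≤ χ := by
    rw [hχ, le_div_iff₀ hzpos]
    nlinarith
  have hd2 : d ≤ 1 / 100000 + eta n := by linarith
  have h2 : χ ≤ cc + eta n + 2.1 * d := by
    rw [hχ, div_le_iff₀ hzpos]
    nlinarith
  set t := (χ - cc) / (1 - cc) with ht
  have ht0 : 0 ≤ t := div_nonneg (by linarith) (by linarith)
  have ht1 : t ≤ 1000 * (eta n + 2.1 * d) := by
    rw [ht, hcc]
    norm_num
    rw [hcc] at h2
    linarith
  have hthalf : t ≤ 1 / 2 := by linarith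
  have hρ : (1 - χ) / (1 - cc) = 1 - t := by rw [ht, hcc]; field_simp; ring
  refine ⟨h1, by linarith, ?_⟩
  rw [hρ]
  have h3 : Real.exp (-(2 * t)) ≤ 1 - t := by
    rw [Real.exp_neg, inv_le_iff_one_le_mul₀' (Real.exp_pos _)]
    have := Real.add_one_le_exp (2 * t)
    nlinarith
  have h4 : Real.exp (-t) ≤ Real.sqrt (1 - t) := by
    refine Real.le_sqrt_of_sq_le (le_trans (le_of_eq ?_) h3)
    rw [← Real.exp_nat_mul]; ring_nf
  refine le_trans ?_ (pow_le_pow_left₀ (Real.exp_pos _).le h4 (n + 1))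
  rw [← Real.exp_nat_mul]
  refine Real.exp_le_exp.2 ?_
  push_cast
  have h5 : ((n:ℝ) + 1) * t ≤ ((n:ℝ) + 1) * (1000 * (eta n + 2.1 * d)) :=
    mul_le_mul_of_nonneg_left ht1 (by positivity)
  have h6 := L.n_eta
  nlinarith [mul_nonneg (show (0:ℝ) ≤ 105 * n - 2100 - 0 * n by linarith) hd0]

/-- What the atoms must satisfy. -/
structure GoodAtoms (n M : ℕ) (a : Fin M → E n) : Prop where
  norm_le : ∀ j, ‖a j‖ ≤ 1
  lam_M : ∀ e : E n, ‖e‖ = 1 → lam n * M * volume.real (cap e cc) ≤ ballVol n / 3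
  shell : ∀ z ∈ gridBox n, 1 - uD n ≤ ‖z‖ → ‖z‖ ≤ 1 + eta n →
    gmin n ≤ ((cutSet a z).card : ℝ) ∧ ((cutSet a z).card : ℝ) ≤ gmax n ∧
      max 0 (Real.log (1 / (lam n * (cutSet a z).card))) ≤ 3000 * (1 + n * (1 + eta n - ‖z‖))
  share : ∀ z ∈ gridBox n, ∀ z' ∈ gridBox n, ‖z‖ ≤ 1 + eta n → ‖z'‖ ≤ 1 + eta n →
    del n ≤ ‖z - z'‖ → ((cutSet a z ∩ cutSet a z').card : ℝ) ≤ (n : ℝ) ^ 2

/-- Numeric conditions used for the atoms. -/
structure AtomsNum (n : ℕ) : Prop where
  large : Large n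
  low : gmin n ≤ gz n / 4 * Real.exp (-(1000 + 2205 * ((n : ℝ) * (eta n + uD n))))
  pair : gz n + 1 ≤ Real.exp (Real.sqrt n / 400)
  u1 : (((9 * n ^ 4) ^ n : ℕ) : ℝ) * Real.exp (-gmin n) < 1 / 4
  u2 : (((9 * n ^ 4) ^ n : ℕ) : ℝ) ^ 2 * Real.exp (2 - (n : ℝ) ^ 2) < 1 / 4

theorem eventually_atomsNum : ∀ᶠ n in atTop, AtomsNum n := by
  filter_upwards [eventually_large, eventually_pow_ge 1180 (by norm_num) (4 * Real.exp (1000 + 23)),
    eventually_poly_le_exp_sqrt 24001 (1 / 400) (by norm_num),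
    eventually_ge_atTop 100000] with n L hK hexp hn
  have hn' := L.npos'
  have hn5 : (100000:ℝ) ≤ n := by exact_mod_cast hn
  have hlog0 : 0 ≤ Real.log n := Real.log_nonneg (by linarith)
  have hB : (((9 * n ^ 4) ^ n : ℕ) : ℝ) ≤ Real.exp ((n : ℝ) * (9 + 4 * Real.log n)) := by
    push_cast
    rw [Real.exp_nat_mul]
    refine pow_le_pow_left₀ (by positivity) ?_ n
    rw [Real.exp_add, show (4:ℝ) * Real.log n = ((4:ℕ):ℝ) * Real.log n by norm_num,
      Real.exp_nat_mul, Real.exp_log hn']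
    refine mul_le_mul_of_nonneg_right ?_ (by positivity)
    linarith [Real.add_one_le_exp (9:ℝ)]
  have hls : Real.log n ≤ 2 * Real.sqrt n := log_le_sqrt hn'
  have hsq : Real.sqrt n * Real.sqrt n = n := Real.mul_self_sqrt hn'.le
  have hs300 : 300 ≤ Real.sqrt n := by
    refine Real.le_sqrt_of_sq_le ?_
    norm_num; linarith
  have hkey : 2 * ((n : ℝ) * (9 + 4 * Real.log n)) + 4 ≤ (n : ℝ) ^ 2 / 2 := by
    nlinarith [mul_le_mul_of_nonneg_left hls hn'.le, mul_le_mul_of_nonneg_right hs300 (Real.sqrt_nonneg (n:ℝ))]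
  refine ⟨L, ?_, ?_, ?_, ?_⟩
  · have h1 : (n : ℝ) * (eta n + uD n) ≤ 1 / 100 + 4 * Real.log n := by
      rw [mul_add, L.n_uD]; linarith [L.n_eta]
    have hup : Real.exp (1000 + 2205 * ((n : ℝ) * (eta n + uD n)))
        ≤ Real.exp (1000 + 23) * (n : ℝ) ^ (8820 : ℕ) := by
      rw [show ((n:ℝ) ^ (8820 : ℕ)) = Real.exp (((8820 : ℕ) : ℝ) * Real.log n) by
        rw [Real.exp_nat_mul, Real.exp_log hn'], ← Real.exp_add]
      refine Real.exp_le_exp.2 ?_
      push_cast; linarith
    rw [Real.exp_neg, ← div_eq_mul_inv, le_div_iff₀ (Real.exp_pos _), gz, gmin]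
    generalize hA : Real.exp (1000 + 2205 * ((n : ℝ) * (eta n + uD n))) = Ae at hup ⊢
    generalize hB2 : Real.exp ((1000:ℝ) + 23) = Be at hup hK
    have e : (n : ℝ) ^ (24000 : ℕ) = (n : ℝ) ^ (14000 : ℕ) * (n : ℝ) ^ (8820 : ℕ) * (n : ℝ) ^ (1180 : ℕ) := by
      rw [← pow_add, ← pow_add]
    rw [e]
    have h14 : (0:ℝ) ≤ (n : ℝ) ^ (14000 : ℕ) := pow_nonneg hn'.le _
    have h88 : (0:ℝ) ≤ (n : ℝ) ^ (8820 : ℕ) := pow_nonneg hn'.le _
    nlinarith [mul_le_mul_of_nonneg_left hup h14,
      mul_le_mul_of_nonneg_left hK (mul_nonneg h14 h88)]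
  · refine le_trans ?_ (le_trans hexp (le_of_eq (by ring_nf)))
    have h1 := L.gz_one_le
    have e : (n : ℝ) ^ (24001 : ℕ) = gz n * n := pow_succ _ _
    rw [e]
    have := mul_le_mul_of_nonneg_left (show (2:ℝ) ≤ n by linarith) (zero_le_one.trans h1)
    linarith
  · have hg : (n : ℝ) ^ 2 ≤ gmin n := pow_le_pow_right₀ (by linarith) (by norm_num)
    refine lt_of_le_of_lt (mul_le_mul_of_nonneg_right hB (Real.exp_pos _).le) ?_
    rw [← Real.exp_add]
    refine lt_of_le_of_lt (Real.exp_le_exp.2 (show _ ≤ (-2:ℝ) by nlinarith)) ?_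
    rw [Real.exp_neg, inv_lt_comm₀ (Real.exp_pos _) (by norm_num)]
    have := Real.quadratic_le_exp_of_nonneg (show (0:ℝ) ≤ 2 by norm_num)
    norm_num at this ⊢
    linarith
  · refine lt_of_le_of_lt (mul_le_mul_of_nonneg_right
      (pow_le_pow_left₀ (Nat.cast_nonneg _) hB 2) (Real.exp_pos _).le) ?_
    rw [← Real.exp_nat_mul, ← Real.exp_add]
    refine lt_of_le_of_lt (Real.exp_le_exp.2 (show _ ≤ (-2:ℝ) by push_cast; nlinarith)) ?_
    rw [Real.exp_neg, inv_lt_comm₀ (Real.exp_pos _) (by norm_num)]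
    have := Real.quadratic_le_exp_of_nonneg (show (0:ℝ) ≤ 2 by norm_num)
    norm_num at this ⊢
    linarith

theorem pair_bound (N : AtomsNum n) (M : ℕ) (e0 : E n) (he0 : ‖e0‖ = 1)
    (hM1 : (M : ℝ) * (volume.real (cap e0 cc) / ballVol n) ≤ gz n + 1) (q : E n × E n)
    (hq1 : ‖q.1‖ ≤ 1 + eta n) (hq2 : ‖q.2‖ ≤ 1 + eta n) (hq3 : del n ≤ ‖q.1 - q.2‖) :
    (M : ℝ) * (unifBall n).real (region q.1 ∩ region q.2) ≤ 1 := by
  classical
  have L := N.large
  have hη := L.eta_pos
  have hV := ballVol_pos (n := n)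
  have hcc : cc = 999 / 1000 := rfl
  set v0 := volume.real (cap e0 cc) with hv0
  have hrot : ∀ (e : E n) (χ : ℝ), ‖e‖ = 1 → volume.real (cap e χ) = volume.real (cap e0 χ) :=
    fun e χ he => cap_rot e e0 (he.trans he0.symm) χ
  set h := ‖q.1 + q.2‖ / 2 with hh
  rcases eq_or_lt_of_le (norm_nonneg (q.1 + q.2)) with h0 | h0
  · have : region q.1 ∩ region q.2 = ∅ := by
      rw [Set.eq_empty_iff_forall_notMem]
      rintro a ⟨⟨-, h1⟩, ⟨-, h2⟩⟩
      have : inner ℝ a (q.1 + q.2) = (0:ℝ) := by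
        rw [norm_eq_zero.1 h0.symm, inner_zero_right]
      rw [inner_add_right] at this
      rw [hcc] at h1 h2
      linarith
    rw [this]; simp
  have hδ := L.del_pos
  set w := del n ^ 2 / 16 with hw
  have hw1 : w ≤ 1 / 16 := by
    rw [hw]
    have : del n ^ 2 ≤ 1 := by
      rw [L.del_sq, div_le_one (Real.sqrt_pos.2 L.npos')]
      exact Real.one_le_sqrt.2 (by linarith [L.ge'])
    linarith
  have hhle : h ≤ 1 + eta n - w := by
    have hsq := parallelogram_law_with_norm ℝ q.1 q.2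
    have a1 : ‖q.1‖ ^ 2 ≤ (1 + eta n) ^ 2 := pow_le_pow_left₀ (norm_nonneg _) hq1 2
    have a2 : ‖q.2‖ ^ 2 ≤ (1 + eta n) ^ 2 := pow_le_pow_left₀ (norm_nonneg _) hq2 2
    have a3 : del n ^ 2 ≤ ‖q.1 - q.2‖ ^ 2 := pow_le_pow_left₀ hδ.le hq3 2
    refine (pow_le_pow_iff_left₀ (by positivity) ?_ two_ne_zero).1 ?_
    · linarith [L.eta_small]
    · rw [hh]
      nlinarith [L.eta_small]
  set Δ := w / 2 with hΔ
  have hΔ0 : 0 ≤ Δ := by positivity
  have hcap : ∀ a ∈ region q.1 ∩ region q.2,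
      cc + Δ ≤ inner ℝ (‖q.1 + q.2‖⁻¹ • (q.1 + q.2)) a := by
    rintro a ⟨⟨-, h1⟩, ⟨-, h2⟩⟩
    rw [inner_unit _ a h0, le_div_iff₀ h0, inner_add_right]
    have : (cc + Δ) * h ≤ cc + eta n := by
      refine (mul_le_mul_of_nonneg_left hhle (by rw [hcc]; positivity)).trans ?_
      rw [hcc, hΔ]
      nlinarith [L.eta_small]
    rw [hh] at this
    linarith
  have hle : (unifBall n).real (region q.1 ∩ region q.2)
      ≤ volume.real (cap e0 (cc + Δ)) / ballVol n := by
    rw [unifBall_real, ← hrot _ _ (norm_unit _ h0)]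
    exact div_le_div_of_nonneg_right
      (measureReal_mono (fun a ha => ⟨ha.2.1.1, hcap a ha.2⟩) (cap_finite _ _).ne) hV.le
  have hup := cap_up e0 he0 L.npos (by norm_num [cc] : (0:ℝ) ≤ cc) hΔ0
  set K := Real.sqrt (1 + Δ * cc) ^ (n - 1) with hK
  have hKexp : Real.exp (Real.sqrt n / 400) ≤ K := by
    have hx : Real.exp (Δ * cc / 4) ≤ Real.sqrt (1 + Δ * cc) := by
      refine Real.le_sqrt_of_sq_le ?_
      rw [← Real.exp_nat_mul]
      have hy0 : 0 ≤ Δ * cc := mul_nonneg hΔ0 (by norm_num [cc])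
      have hy1 : Δ * cc ≤ 1 := by rw [hΔ, hcc]; linarith
      have hb := Real.exp_bound_div_one_sub_of_interval (show 0 ≤ Δ * cc / 2 by linarith)
        (show Δ * cc / 2 < 1 by linarith)
      refine le_trans (le_of_eq (by push_cast; ring_nf)) (hb.trans ?_)
      rw [div_le_iff₀ (by linarith)]
      nlinarith
    refine le_trans ?_ (pow_le_pow_left₀ (Real.exp_pos _).le hx (n - 1))
    rw [← Real.exp_nat_mul]
    refine Real.exp_le_exp.2 ?_
    rw [Nat.cast_sub (by linarith [L.hn] : 1 ≤ n), hΔ, hw, L.del_sq, hcc]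
    have hsn : Real.sqrt n * Real.sqrt n = n := Real.mul_self_sqrt L.npos'.le
    have hs0 : 0 < Real.sqrt n := Real.sqrt_pos.2 L.npos'
    field_simp
    push_cast
    nlinarith [L.ge']
  have hKpos : 0 < K := lt_of_lt_of_le (Real.exp_pos _) hKexp
  have h6 : volume.real (cap e0 (cc + Δ)) ≤ v0 / K := by
    rw [le_div_iff₀ hKpos, mul_comm]; exact hup
  calc (M : ℝ) * (unifBall n).real (region q.1 ∩ region q.2)
      ≤ M * (v0 / K / ballVol n) := mul_le_mul_of_nonneg_left
        (hle.trans (div_le_div_of_nonneg_right h6 hV.le)) (Nat.cast_nonneg M)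
    _ = M * (v0 / ballVol n) / K := by ring
    _ ≤ 1 := (div_le_one hKpos).2 (hM1.trans (N.pair.trans hKexp))

theorem exists_tuple (N : AtomsNum n) (M : ℕ) (Sh : Finset (E n)) (Pr : Finset (E n × E n))
    (mu : E n → ℝ) (hSh : Sh ⊆ gridBox n) (hPr : Pr ⊆ gridBox n ×ˢ gridBox n)
    (hmu : ∀ z, mu z = (M : ℝ) * (unifBall n).real (region z))
    (hgmin : ∀ z ∈ Sh, gmin n ≤ mu z / 4) (hhi : ∀ z ∈ Sh, mu z ≤ gz n + 1)
    (hpair : ∀ q ∈ Pr, (M : ℝ) * (unifBall n).real (region q.1 ∩ region q.2) ≤ 1) :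
    ∃ a : Fin M → E n, (∀ z ∈ Sh, mu z / 4 < hits (region z) a) ∧
      (∀ z ∈ Sh, hits (region z) a < gmax n) ∧
      ∀ q ∈ Pr, hits (region q.1 ∩ region q.2) a < (n : ℝ) ^ 2 := by
  have L := N.large
  have hgz := L.gz_one_le
  let μ : Measure (Fin M → E n) := Measure.pi fun _ => unifBall n
  let F : (Fin M → E n) → ℝ := fun a =>
    (∑ z ∈ Sh, Real.exp (-1 * hits (region z) a + mu z / 4))
    + (∑ z ∈ Sh, Real.exp (1 * hits (region z) a + -gmax n))
    + ∑ q ∈ Pr, Real.exp (1 * hits (region q.1 ∩ region q.2) a + -((n : ℝ) ^ 2))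
  have hint : Integrable F μ :=
    ((integrable_finsetSum _ fun z _ => integrable_exp_hits M (measurableSet_region z) _ _).add
      (integrable_finsetSum _ fun z _ => integrable_exp_hits M (measurableSet_region z) _ _)).add
      (integrable_finsetSum _ fun q _ =>
        integrable_exp_hits M ((measurableSet_region q.1).inter (measurableSet_region q.2)) _ _)
  have hI : ∫ a, F a ∂μ < 1 := by
    have i1 := integrable_finsetSum (μ := μ) Sh (f := fun z a =>
      Real.exp (-1 * hits (region z) a + mu z / 4))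
      fun z _ => integrable_exp_hits M (measurableSet_region z) _ _
    have i2 := integrable_finsetSum (μ := μ) Sh (f := fun z a =>
      Real.exp (1 * hits (region z) a + -gmax n))
      fun z _ => integrable_exp_hits M (measurableSet_region z) _ _
    have i3 := integrable_finsetSum (μ := μ) Pr (f := fun q a =>
      Real.exp (1 * hits (region q.1 ∩ region q.2) a + -((n : ℝ) ^ 2)))
      fun q _ => integrable_exp_hits M
        ((measurableSet_region q.1).inter (measurableSet_region q.2)) _ _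
    have he1 : Real.exp 1 - 1 ≤ 2 := by linarith [Real.exp_one_lt_d9]
    have he1' : 0 ≤ Real.exp 1 - 1 := by linarith [Real.add_one_le_exp (1:ℝ)]
    have hem : Real.exp (-1) - 1 ≤ -(1/2 : ℝ) := by
      rw [Real.exp_neg]
      have : (Real.exp 1)⁻¹ ≤ 1 / 2 := by
        rw [one_div]
        exact inv_anti₀ (by norm_num) (by linarith [Real.add_one_le_exp (1:ℝ)])
      linarith
    have t1 : ∀ z ∈ Sh, ∫ a, Real.exp (-1 * hits (region z) a + mu z / 4) ∂μ
        ≤ Real.exp (-gmin n) := by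
      intro z hz
      refine (integral_exp_hits_le M (measurableSet_region z) _ _).trans (Real.exp_le_exp.2 ?_)
      have h1 := hgmin z hz
      have h0 : 0 ≤ mu z := by rw [hmu]; exact mul_nonneg (Nat.cast_nonneg M) measureReal_nonneg
      have h2 := mul_le_mul_of_nonneg_left hem h0
      rw [hmu] at h1 h2 ⊢
      linarith
    have hgg : gmin n ≤ gz n := pow_le_pow_right₀ (by linarith [L.ge']) (by norm_num)
    have t2 : ∀ z ∈ Sh, ∫ a, Real.exp (1 * hits (region z) a + -gmax n) ∂μ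
        ≤ Real.exp (-gmin n) := by
      intro z hz
      refine (integral_exp_hits_le M (measurableSet_region z) _ _).trans (Real.exp_le_exp.2 ?_)
      have h0 : 0 ≤ mu z := by rw [hmu]; exact mul_nonneg (Nat.cast_nonneg M) measureReal_nonneg
      have h2 := mul_le_mul (hhi z hz) he1 he1' (by linarith)
      rw [gmax]; rw [hmu] at h2
      linarith
    have t3 : ∀ q ∈ Pr, ∫ a, Real.exp (1 * hits (region q.1 ∩ region q.2) a + -((n : ℝ) ^ 2)) ∂μ
        ≤ Real.exp (2 - (n : ℝ) ^ 2) := by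
      intro q hq
      refine (integral_exp_hits_le M
        ((measurableSet_region q.1).inter (measurableSet_region q.2)) _ _).trans
        (Real.exp_le_exp.2 ?_)
      have h2 := mul_le_mul (hpair q hq) he1 he1' zero_le_one
      linarith
    have hShc : (Sh.card : ℝ) ≤ (((9 * n ^ 4) ^ n : ℕ) : ℝ) := by
      exact_mod_cast (card_le_card hSh).trans (card_gridBox L.npos)
    have hPrc : (Pr.card : ℝ) ≤ (((9 * n ^ 4) ^ n : ℕ) : ℝ) ^ 2 := by
      have h2 : Pr.card ≤ ((9 * n ^ 4) ^ n) ^ 2 := by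
        refine (card_le_card hPr).trans ?_
        rw [card_product, sq]
        exact Nat.mul_le_mul (card_gridBox L.npos) (card_gridBox L.npos)
      calc (Pr.card : ℝ) ≤ ((((9 * n ^ 4) ^ n) ^ 2 : ℕ) : ℝ) := by exact_mod_cast h2
        _ = _ := Nat.cast_pow _ 2
    have key : ∫ a, F a ∂μ ≤ Sh.card * Real.exp (-gmin n) + Sh.card * Real.exp (-gmin n)
        + Pr.card * Real.exp (2 - (n : ℝ) ^ 2) := by
      simp only [F]
      have hA := integral_add (i1.add i2) i3
      simp only [Pi.add_apply] at hA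
      rw [hA, integral_add i1 i2,
        integral_finsetSum _ (fun z _ => integrable_exp_hits M (measurableSet_region z) _ _),
        integral_finsetSum _ (fun z _ => integrable_exp_hits M (measurableSet_region z) _ _),
        integral_finsetSum _ (fun q _ => integrable_exp_hits M
          ((measurableSet_region q.1).inter (measurableSet_region q.2)) _ _),
        ← nsmul_eq_mul, ← nsmul_eq_mul, ← sum_const, ← sum_const]
      exact add_le_add (add_le_add (sum_le_sum t1) (sum_le_sum t2)) (sum_le_sum t3)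
    have u1 := N.u1
    have u2 := N.u2
    have k1 := mul_le_mul_of_nonneg_right hShc (Real.exp_pos (-gmin n)).le
    have k2 := mul_le_mul_of_nonneg_right hPrc (Real.exp_pos (2 - (n : ℝ) ^ 2)).le
    linarith
  obtain ⟨a, ha⟩ := exists_le_integral hint
  have ha1 : F a < 1 := ha.trans_lt hI
  simp only [F] at ha1
  have p1 : 0 ≤ ∑ z ∈ Sh, Real.exp (-1 * hits (region z) a + mu z / 4) :=
    sum_nonneg fun i _ => (Real.exp_pos _).le
  have p2 : 0 ≤ ∑ z ∈ Sh, Real.exp (1 * hits (region z) a + -gmax n) :=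
    sum_nonneg fun i _ => (Real.exp_pos _).le
  have p3 : 0 ≤ ∑ q ∈ Pr, Real.exp (1 * hits (region q.1 ∩ region q.2) a + -((n : ℝ) ^ 2)) :=
    sum_nonneg fun i _ => (Real.exp_pos _).le
  refine ⟨a, fun z hz => ?_, fun z hz => ?_, fun q hq => ?_⟩
  · have h := single_le_sum (f := fun z => Real.exp (-1 * hits (region z) a + mu z / 4))
      (fun i _ => (Real.exp_pos _).le) hz
    have h' : Real.exp (-1 * hits (region z) a + mu z / 4) < 1 := by linarith
    rw [Real.exp_lt_one_iff] at h'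
    linarith
  · have h := single_le_sum (f := fun z => Real.exp (1 * hits (region z) a + -gmax n))
      (fun i _ => (Real.exp_pos _).le) hz
    have h' : Real.exp (1 * hits (region z) a + -gmax n) < 1 := by linarith
    rw [Real.exp_lt_one_iff] at h'
    linarith
  · have h := single_le_sum (f := fun q : E n × E n =>
      Real.exp (1 * hits (region q.1 ∩ region q.2) a + -((n : ℝ) ^ 2)))
      (fun i _ => (Real.exp_pos _).le) hq
    have h' : Real.exp (1 * hits (region q.1 ∩ region q.2) a + -((n : ℝ) ^ 2)) < 1 := by linarith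
    rw [Real.exp_lt_one_iff] at h'
    linarith

theorem exists_goodAtoms (N : AtomsNum n) : ∃ (M : ℕ) (a : Fin M → E n), GoodAtoms n M a := by
  classical
  have L := N.large
  have hη := L.eta_pos
  have hV := ballVol_pos (n := n)
  have hgz := L.gz_one_le
  have hcc : cc = 999 / 1000 := rfl
  obtain ⟨e0, he0⟩ : ∃ e : E n, ‖e‖ = 1 :=
    ⟨EuclideanSpace.single ⟨0, L.npos⟩ 1, by simp⟩
  set v0 := volume.real (cap e0 cc) with hv0
  have hv0pos : 0 < v0 := cap_pos e0 he0 (by norm_num [cc]) (by norm_num [cc])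
  have hrot : ∀ (e : E n) (χ : ℝ), ‖e‖ = 1 → volume.real (cap e χ) = volume.real (cap e0 χ) :=
    fun e χ he => cap_rot e e0 (he.trans he0.symm) χ
  have hv0V : v0 ≤ ballVol n := measureReal_mono (cap_subset_ball e0 cc) measure_closedBall_lt_top.ne
  set M := ⌈gz n * ballVol n / v0⌉₊ with hM
  have hMlo : gz n * ballVol n / v0 ≤ M := Nat.le_ceil _
  have hMhi : (M : ℝ) ≤ gz n * ballVol n / v0 + 1 := (Nat.ceil_lt_add_one (by positivity)).le
  have hM1 : (M : ℝ) * (v0 / ballVol n) ≤ gz n + 1 := by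
    refine (mul_le_mul_of_nonneg_right hMhi (by positivity)).trans ?_
    rw [add_mul, one_mul]
    have e : gz n * ballVol n / v0 * (v0 / ballVol n) = gz n := by field_simp
    rw [e]
    linarith [(div_le_one hV).2 hv0V]
  let μ : Measure (Fin M → E n) := Measure.pi fun _ => unifBall n
  set Sh := (gridBox n).filter (fun z => 1 - uD n ≤ ‖z‖ ∧ ‖z‖ ≤ 1 + eta n) with hSh
  set Pr := ((gridBox n) ×ˢ (gridBox n)).filter
    (fun q => ‖q.1‖ ≤ 1 + eta n ∧ ‖q.2‖ ≤ 1 + eta n ∧ del n ≤ ‖q.1 - q.2‖) with hPr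
  set mu : E n → ℝ := fun z => (M : ℝ) * (unifBall n).real (region z) with hmu
  have hmu_lo : ∀ z ∈ Sh,
      gz n * Real.exp (-(1000 + 2205 * ((n : ℝ) * (1 + eta n - ‖z‖)))) ≤ mu z ∧
      mu z ≤ gz n + 1 := by
    intro z hz
    obtain ⟨-, hz1, hz2⟩ := mem_filter.1 hz
    have hzpos : 0 < ‖z‖ := by linarith [L.hu]
    obtain ⟨h1, h2, h3⟩ := shell_pow_lower L hz1 hz2
    simp only [hmu, region_real_eq z hzpos, hrot _ _ (norm_unit z hzpos)]
    constructor
    · have h4 := cap_low e0 he0 L.npos (by norm_num [cc]) h1 h2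
      have h5 : Real.exp (-(1000 + 2205 * ((n : ℝ) * (1 + eta n - ‖z‖)))) * v0
          ≤ volume.real (cap e0 ((cc + eta n) / ‖z‖)) :=
        (mul_le_mul_of_nonneg_right h3 hv0pos.le).trans h4
      refine le_trans ?_ (mul_le_mul hMlo (div_le_div_of_nonneg_right h5 hV.le)
        (by positivity) (Nat.cast_nonneg M))
      refine le_of_eq ?_
      field_simp
    · exact (mul_le_mul_of_nonneg_left (div_le_div_of_nonneg_right (cap_mono e0 h1) hV.le)
        (Nat.cast_nonneg M)).trans hM1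
  have hgmin : ∀ z ∈ Sh, gmin n ≤ mu z / 4 := by
    intro z hz
    obtain ⟨-, hz1, hz2⟩ := mem_filter.1 hz
    refine le_trans N.low ?_
    have h1 := (hmu_lo z hz).1
    have h2 : Real.exp (-(1000 + 2205 * ((n : ℝ) * (eta n + uD n))))
        ≤ Real.exp (-(1000 + 2205 * ((n : ℝ) * (1 + eta n - ‖z‖)))) := by
      refine Real.exp_le_exp.2 ?_
      have := mul_le_mul_of_nonneg_left (show 1 + eta n - ‖z‖ ≤ eta n + uD n by linarith) L.npos'.le
      linarith
    have h3 := mul_le_mul_of_nonneg_left h2 (zero_le_one.trans hgz)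
    linarith
  have hpair : ∀ q ∈ Pr, (M : ℝ) * (unifBall n).real (region q.1 ∩ region q.2) ≤ 1 := by
    intro q hq
    obtain ⟨-, hq1, hq2, hq3⟩ := mem_filter.1 hq
    exact pair_bound N M e0 he0 hM1 q hq1 hq2 hq3
  obtain ⟨a, ha1, ha2, ha3⟩ := exists_tuple N M Sh Pr mu (filter_subset _ _)
    (filter_subset _ _) (fun z => rfl) hgmin (fun z hz => (hmu_lo z hz).2) hpair
  let a' : Fin M → E n := fun j => if ‖a j‖ ≤ 1 then a j else 0
  have hcut : ∀ z, cutSet a' z = univ.filter (fun j => a j ∈ region z) := by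
    intro z
    ext j
    rw [cutSet, mem_filter, mem_filter]
    refine and_congr_right fun _ => ?_
    show cc + eta n ≤ inner ℝ (a' j) z ↔ (‖a j‖ ≤ 1 ∧ cc + eta n ≤ inner ℝ (a j) z)
    by_cases hj : ‖a j‖ ≤ 1
    · simp [a', hj]
    · simp only [a', hj, if_false, inner_zero_left, false_and, iff_false, hcc]
      linarith
  refine ⟨M, a', fun j => ?_, fun e he => ?_, fun z hz hz1 hz2 => ?_, fun z hz z' hz' h1 h2 h3 => ?_⟩
  · simp only [a']; split_ifs with hj
    · exact hj
    · simp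
  · rw [hrot e _ he, ← hv0, lam]
    have e1 : (gz n * ballVol n / v0 + 1) * v0 = gz n * ballVol n + v0 := by field_simp
    have h2 := mul_le_mul_of_nonneg_right hMhi hv0pos.le
    rw [e1] at h2
    rw [div_mul_eq_mul_div, one_mul, div_mul_eq_mul_div, div_le_iff₀ (by positivity)]
    have h3 : 3 ≤ gz n := le_trans (by linarith [L.ge']) (le_self_pow₀ (by linarith [L.ge']) (by norm_num : (24000:ℕ) ≠ 0))
    have h4 : v0 * 3 ≤ gz n * ballVol n := by nlinarith
    linarith
  · have hzS : z ∈ Sh := mem_filter.2 ⟨hz, hz1, hz2⟩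
    have hcard : ((cutSet a' z).card : ℝ) = hits (region z) a := by rw [hcut, hits_eq]
    have e1 := ha1 z hzS
    have e2 := ha2 z hzS
    rw [← hcard] at e1 e2
    have hg := hgmin z hzS
    refine ⟨by linarith, by linarith, max_le ?_ ?_⟩
    · have := mul_nonneg L.npos'.le (show 0 ≤ 1 + eta n - ‖z‖ by linarith)
      linarith
    · have h1 := (hmu_lo z hzS).1
      set X := (1000 + 2205 * ((n : ℝ) * (1 + eta n - ‖z‖))) with hX
      have hc : gz n * Real.exp (-X) / 4 ≤ ((cutSet a' z).card : ℝ) := by linarith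
      have h5 : Real.exp (-X) / 16 ≤ lam n * (cutSet a' z).card := by
        refine le_trans (le_of_eq ?_) (mul_le_mul_of_nonneg_left hc L.lam_pos.le)
        unfold lam; field_simp; ring
      have hpos : 0 < lam n * ((cutSet a' z).card : ℝ) :=
        lt_of_lt_of_le (by positivity) h5
      rw [one_div, Real.log_inv]
      have h6 := Real.log_le_log (by positivity) h5
      rw [Real.log_div (Real.exp_pos _).ne' (by norm_num), Real.log_exp] at h6
      have h16 := Real.log_le_sub_one_of_pos (show (0:ℝ) < 16 by norm_num)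
      have := mul_nonneg L.npos'.le (show 0 ≤ 1 + eta n - ‖z‖ by linarith)
      rw [hX] at h6
      linarith
  · have hq : (z, z') ∈ Pr := mem_filter.2 ⟨mem_product.2 ⟨hz, hz'⟩, h1, h2, h3⟩
    have hcard : ((cutSet a' z ∩ cutSet a' z').card : ℝ) = hits (region z ∩ region z') a := by
      rw [hcut, hcut, hits_eq, ← filter_and]; rfl
    have e := ha3 (z, z') hq
    simp only [← hcard] at e
    exact e.le

end Vale.Agent.P230
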