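import Mathlib

/-!
Translative and lattice covering densities in Euclidean space.
-/

namespace Vale.Agent.P230

open MeasureTheory Filter Pointwise
open scoped ENNReal

/-- The cube `[-R, R]^n`. -/
def cube (n : ℕ) (R : ℝ) : Set (EuclideanSpace ℝ (Fin n)) := {x | ∀ i, |x i| ≤ R}

/-- Translative covering density: infimum over locally finite `X` with `K + X` the whole space of
`vol K * limsup_R #(X ∩ [-R,R]^n) / (2R)^n`. -/
noncomputable def thetaT {n : ℕ} (K : Set (EuclideanSpace ℝ (Fin n))) : ℝ≥0∞ :=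
  ⨅ (X : Set (EuclideanSpace ℝ (Fin n)))
    (_ : ∀ s : Set (EuclideanSpace ℝ (Fin n)), Bornology.IsBounded s → (X ∩ s).Finite)
    (_ : K + X = Set.univ),
    volume K * limsup (fun R : ℝ =>
      ((X ∩ cube n R).ncard : ℝ≥0∞) / ENNReal.ofReal ((2 * R) ^ n)) atTop

/-- Lattice covering density: infimum of `vol K / det Λ` over full rank lattices `Λ` with
`K + Λ` the whole space. -/
noncomputable def thetaL {n : ℕ} (K : Set (EuclideanSpace ℝ (Fin n))) : ℝ≥0∞ :=
  ⨅ (L : Submodule ℤ (EuclideanSpace ℝ (Fin n))) (_ : DiscreteTopology L) (_ : IsZLattice ℝ L)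
    (_ : K + (L : Set (EuclideanSpace ℝ (Fin n))) = Set.univ),
    volume K / ENNReal.ofReal (ZLattice.covolume L)

end Vale.Agent.P230
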