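import Mathlib
import Vale.Agent.P230.Geometry
import Vale.Agent.P230.Params
import Vale.Agent.P230.Defs

/-!
A thin covering has a window where most test points have small load.
-/

namespace Vale.Agent.P230

open MeasureTheory Metric Filter Finset
open scoped ENNReal

variable {n : ℕ}

theorem cube_eq (R : ℝ) :
    cube n R = WithLp.ofLp ⁻¹' Set.univ.pi (fun _ : Fin n => Set.Icc (-R) R) := by
  ext x
  simp [cube, abs_le]
  exact ⟨fun h => ⟨fun i => (h i).1, fun i => (h i).2⟩, fun h i => ⟨h.1 i, h.2 i⟩⟩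

theorem measurableSet_cube (R : ℝ) : MeasurableSet (cube n R) := by
  rw [cube_eq]
  exact (WithLp.measurable_ofLp _ _) (MeasurableSet.univ_pi fun _ => measurableSet_Icc)

theorem vol_cube {R : ℝ} (hR : 0 ≤ R) : volume (cube n R) = ENNReal.ofReal ((2 * R) ^ n) := by
  rw [cube_eq, (PiLp.volume_preserving_ofLp (Fin n)).measure_preimage
    (MeasurableSet.univ_pi fun _ => measurableSet_Icc).nullMeasurableSet, volume_pi_pi,
    Finset.prod_congr rfl (fun i _ => by rw [Real.volume_Icc, sub_neg_eq_add, ← two_mul]),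
    Finset.prod_const, Finset.card_univ, Fintype.card_fin, ENNReal.ofReal_pow (by positivity)]

/-- Points of the rounded configuration close enough to matter for `y`. -/
noncomputable def alive (n : ℕ) (Xh : Finset (E n)) (y : E n) : Finset (E n) :=
  open Classical in Xh.filter (fun x => ‖y - x‖ ≤ 1 + eta n)

/-- Depth weighted number of alive points. -/
noncomputable def load (n : ℕ) (Xh : Finset (E n)) (y : E n) : ℝ :=
  ∑ x ∈ alive n Xh y, (1 + n * (1 + eta n - ‖y - x‖))

/-- Test points of small load. -/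
noncomputable def goodY (n : ℕ) (Dst : ℝ) (Xh : Finset (E n)) : Finset (E n) :=
  open Classical in (gridBox n).filter (fun y =>
    ‖y‖ ≤ 1 + eta n ∧ load n Xh y ≤ Dst ∧ ∀ x ∈ Xh, 1 - uD n ≤ ‖y - x‖)

/-- Load weight. -/
noncomputable def wDepth (n : ℕ) (z : E n) : ℝ≥0∞ :=
  (closedBall (0 : E n) (1 + 2 * eta n)).indicator
    (fun z => ENNReal.ofReal (1 + n * (1 + 2 * eta n - ‖z‖))) z

theorem measurable_wDepth : Measurable (wDepth n) :=
  (((measurable_norm.const_sub _).const_mul _).const_add _).ennreal_ofReal.indicator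
    measurableSet_closedBall

theorem lintegral_wDepth_le (L : Large n) :
    ∫⁻ z, wDepth n z ≤ ENNReal.ofReal (8 * ballVol n) := by
  classical
  set R := 1 + 2 * eta n with hR
  have hη := L.eta_pos
  have hR2 : R ≤ 2 := by linarith [L.eta_small]
  have hn := L.npos'
  have hpt : ∀ z : E n, wDepth n z ≤ (closedBall (0 : E n) R).indicator (fun _ => 1) z
      + ∑ j ∈ range (2 * n + 1),
        (closedBall (0 : E n) (R - j / n)).indicator (fun _ => 1) z := by
    intro z
    by_cases hz : z ∈ closedBall (0 : E n) R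
    swap
    · simp [wDepth, ← hR, Set.indicator_of_notMem hz]
    rw [wDepth, ← hR, Set.indicator_of_mem hz, Set.indicator_of_mem hz]
    rw [mem_closedBall, dist_zero_right] at hz
    set s := (n : ℝ) * (R - ‖z‖) with hs
    have hs0 : 0 ≤ s := mul_nonneg hn.le (by linarith)
    have hs2 : s ≤ 2 * n := by
      have := mul_le_mul_of_nonneg_left (show R - ‖z‖ ≤ 2 by linarith [norm_nonneg z]) hn.le
      linarith
    have hsub : range (⌊s⌋₊ + 1) ⊆ (range (2 * n + 1)).filter (fun j : ℕ => z ∈ closedBall (0 : E n) (R - j / n)) := by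
      intro j hj
      rw [mem_range] at hj
      have hj' : (j : ℝ) ≤ s := (Nat.cast_le.2 (Nat.lt_succ_iff.1 hj)).trans (Nat.floor_le hs0)
      refine mem_filter.2 ⟨mem_range.2 ?_, ?_⟩
      · have : (j : ℝ) ≤ ((2 * n : ℕ) : ℝ) := by push_cast; linarith
        have := Nat.cast_le.1 this
        omega
      · rw [mem_closedBall, dist_zero_right]
        have : (j : ℝ) / n ≤ R - ‖z‖ := by rw [div_le_iff₀ hn]; linarith
        linarith
    simp only [Set.indicator_apply]
    rw [sum_boole, ← ENNReal.ofReal_natCast, ← ENNReal.ofReal_one,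
      ← ENNReal.ofReal_add zero_le_one (Nat.cast_nonneg _)]
    refine ENNReal.ofReal_le_ofReal ?_
    have h1 := card_le_card hsub
    rw [card_range] at h1
    have h2 : ((⌊s⌋₊ + 1 : ℕ) : ℝ) ≤ (((range (2 * n + 1)).filter
        (fun j : ℕ => z ∈ closedBall (0 : E n) (R - j / n))).card : ℝ) := Nat.cast_le.2 h1
    push_cast at h2 ⊢
    linarith [(Nat.lt_floor_add_one s)]
  refine (lintegral_mono hpt).trans ?_
  rw [lintegral_add_left (measurable_const.indicator measurableSet_closedBall),
    lintegral_finsetSum _ (fun j _ => measurable_const.indicator measurableSet_closedBall)]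
  simp only [lintegral_indicator_const measurableSet_closedBall, one_mul]
  have hball : ∀ r : ℝ, 0 ≤ r → volume (closedBall (0 : E n) r) = ENNReal.ofReal (r ^ n * ballVol n) := by
    intro r hr
    rw [← vol_closedBall 0 hr, measureReal_def, ENNReal.ofReal_toReal measure_closedBall_lt_top.ne]
  have hV := ballVol_pos (n := n)
  have hRn : R ^ n ≤ 2 := by
    refine (pow_le_pow_left₀ (by positivity) (show R ≤ Real.exp (2 * eta n) by
      linarith [Real.add_one_le_exp (2 * eta n)]) n).trans ?_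
    rw [← Real.exp_nat_mul]
    have h1 : (n : ℝ) * (2 * eta n) ≤ 1 / 50 := by linarith [L.n_eta]
    refine (Real.exp_le_exp.2 h1).trans ?_
    have := Real.exp_bound_div_one_sub_of_interval (show (0:ℝ) ≤ 1 / 50 by norm_num) (by norm_num)
    refine this.trans (by norm_num)
  set q := Real.exp (-(1 / 2) : ℝ) with hq
  have hq0 : 0 < q := Real.exp_pos _
  have hq1 : q ≤ 2 / 3 := by
    rw [hq, Real.exp_neg, inv_le_comm₀ (Real.exp_pos _) (by norm_num)]
    linarith [Real.add_one_le_exp (1 / 2 : ℝ)]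
  have hj : ∀ j ∈ range (2 * n + 1), volume (closedBall (0 : E n) (R - j / n))
      ≤ ENNReal.ofReal (2 * q ^ j * ballVol n) := by
    intro j _
    rcases lt_or_ge (R - (j : ℝ) / n) 0 with h | h
    · simp [closedBall_eq_empty.2 h]
    rw [hball _ h]
    refine ENNReal.ofReal_le_ofReal (mul_le_mul_of_nonneg_right ?_ hV.le)
    have hR0 : 0 < R := by linarith
    have h1 : R - (j : ℝ) / n ≤ R * Real.exp (-((j : ℝ) / (n * R))) := by
      have h3 := mul_le_mul_of_nonneg_left (Real.add_one_le_exp (-((j : ℝ) / (n * R)))) hR0.le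
      refine le_trans (le_of_eq ?_) h3
      field_simp; ring
    refine (pow_le_pow_left₀ h h1 n).trans ?_
    rw [mul_pow, ← Real.exp_nat_mul, hq, ← Real.exp_nat_mul]
    refine mul_le_mul hRn (Real.exp_le_exp.2 ?_) (Real.exp_pos _).le (by norm_num)
    have e : (n : ℝ) * -((j : ℝ) / (n * R)) = -((j : ℝ) / R) := by field_simp
    rw [e, mul_neg, mul_one_div, neg_le_neg_iff]
    exact div_le_div_of_nonneg_left (Nat.cast_nonneg j) hR0 hR2
  rw [hball R (by positivity)]
  refine (add_le_add le_rfl (sum_le_sum hj)).trans ?_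
  rw [← ENNReal.ofReal_sum_of_nonneg (fun j _ => by positivity),
    ← ENNReal.ofReal_add (by positivity) (sum_nonneg fun j _ => by positivity)]
  refine ENNReal.ofReal_le_ofReal ?_
  rw [← sum_mul, ← mul_sum]
  have hgeo : ∑ j ∈ range (2 * n + 1), q ^ j ≤ 3 := by
    rw [geom_sum_eq (by linarith), div_le_iff_of_neg (by linarith)]
    nlinarith [pow_nonneg hq0.le (2 * n + 1)]
  have := mul_le_mul_of_nonneg_right hRn hV.le
  have := mul_le_mul_of_nonneg_right hgeo hV.le
  nlinarith

/-- Weight of inner points. -/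
noncomputable def wInner (n : ℕ) (z : E n) : ℝ≥0∞ :=
  (closedBall (0 : E n) (1 - uD n + eta n)).indicator (fun _ => 1) z

theorem measurable_wInner : Measurable (wInner n) :=
  measurable_const.indicator measurableSet_closedBall

theorem inner_radius_pow (L : Large n) : (1 - uD n + eta n) ^ n ≤ 2 / (n : ℝ) ^ 4 := by
  have hn := L.npos'
  refine (pow_le_pow_left₀ (by linarith [L.hu, L.eta_pos]) (show 1 - uD n + eta n
    ≤ Real.exp (-uD n + eta n) by linarith [Real.add_one_le_exp (-uD n + eta n)]) n).trans ?_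
  rw [← Real.exp_nat_mul, mul_add, mul_neg, L.n_uD, Real.exp_add, Real.exp_neg,
    show (4:ℝ) * Real.log n = ((4:ℕ):ℝ) * Real.log n by norm_num, Real.exp_nat_mul,
    Real.exp_log hn, inv_mul_eq_div]
  refine div_le_div_of_nonneg_right ?_ (by positivity)
  refine (Real.exp_le_exp.2 L.n_eta).trans ?_
  have := Real.exp_bound_div_one_sub_of_interval (show (0:ℝ) ≤ 1 / 100 by norm_num) (by norm_num)
  exact this.trans (by norm_num)

/-- Shift at which all three averaged quantities are small. -/
theorem exists_shift (L : Large n) (T : ℝ → Finset (E n)) {D R0 : ℝ} (hD : 0 < D)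
    (hcount : ∀ R, R0 ≤ R → ((T R).card : ℝ) ≤ 4 * D / ballVol n * (2 * R) ^ n) :
    ∃ R : ℝ, 0 < R ∧ ∃ y0 ∈ cube n R,
      ∑ x ∈ T (R + 5), (closedBall (0 : E n) 3).indicator (fun _ => (1:ℝ≥0∞)) (x - y0)
        ≤ ENNReal.ofReal (24 * D * 3 ^ n) ∧
      ∫⁻ y in closedBall (0 : E n) 1, ∑ x ∈ T (R + 5), wDepth n (y - (x - y0))
        ≤ ENNReal.ofReal (192 * D * ballVol n) ∧
      ∫⁻ y in closedBall (0 : E n) 1, ∑ x ∈ T (R + 5), wInner n (y - (x - y0))
        ≤ ENNReal.ofReal (48 * D / (n : ℝ) ^ 4 * ballVol n) := by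
  classical
  have hV := ballVol_pos (n := n)
  have hn := L.npos'
  set R := max R0 (10 * n) + 1 with hRdef
  have hR0 : R0 ≤ R + 5 := by linarith [le_max_left R0 (10 * (n:ℝ))]
  have hR10 : 10 * (n : ℝ) ≤ R := by linarith [le_max_right R0 (10 * (n:ℝ))]
  have hR : 0 < R := by linarith
  refine ⟨R, hR, ?_⟩
  set Xf := T (R + 5) with hXf
  set B := closedBall (0 : E n) 1 with hB
  let p1 : E n → ℝ≥0∞ := fun y0 =>
    ∑ x ∈ Xf, (closedBall (0 : E n) 3).indicator (fun _ => (1:ℝ≥0∞)) (x - y0)
  let p2 : E n → ℝ≥0∞ := fun y0 => ∫⁻ y in B, ∑ x ∈ Xf, wDepth n (y - (x - y0))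
  let p3 : E n → ℝ≥0∞ := fun y0 => ∫⁻ y in B, ∑ x ∈ Xf, wInner n (y - (x - y0))
  let s1 : ℝ≥0∞ := ENNReal.ofReal (1 / 3 ^ n)
  let s2 : ℝ≥0∞ := ENNReal.ofReal (1 / (8 * ballVol n))
  let s3 : ℝ≥0∞ := ENNReal.ofReal ((n : ℝ) ^ 4 / (2 * ballVol n))
  let Φ : E n → ℝ≥0∞ := fun y0 => s1 * p1 y0 + s2 * p2 y0 + s3 * p3 y0
  have hm1 : Measurable p1 := Finset.measurable_sum _ fun x _ =>
    (measurable_const.indicator measurableSet_closedBall).comp (measurable_const.sub measurable_id)
  have hjoint : ∀ w : E n → ℝ≥0∞, Measurable w →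
      Measurable (Function.uncurry fun y0 y => ∑ x ∈ Xf, w (y - (x - y0))) := fun w hw =>
    Finset.measurable_sum _ fun x _ =>
      hw.comp (measurable_snd.sub (measurable_const.sub measurable_fst))
  have hint : ∀ w : E n → ℝ≥0∞, Measurable w →
      ∫⁻ y0 in cube n R, ∫⁻ y in B, ∑ x ∈ Xf, w (y - (x - y0))
        ≤ (Xf.card : ℝ≥0∞) * (∫⁻ z, w z) * volume B := by
    intro w hw
    rw [lintegral_lintegral_swap (hjoint w hw).aemeasurable, ← setLIntegral_const]
    refine lintegral_mono fun y => ?_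
    refine (setLIntegral_le_lintegral _ _).trans ?_
    rw [lintegral_finsetSum Xf (f := fun x y0 => w (y - (x - y0))) (fun x _ =>
      hw.comp (measurable_const.sub (measurable_const.sub measurable_id)))]
    calc ∑ x ∈ Xf, ∫⁻ y0, w (y - (x - y0)) = ∑ _x ∈ Xf, ∫⁻ z, w z := by
          refine sum_congr rfl fun x _ => ?_
          rw [show (fun y0 => w (y - (x - y0))) = fun y0 => w ((y - x) + y0) by
            funext y0; congr 1; abel]
          exact lintegral_add_left_eq_self w (y - x)
      _ ≤ _ := by rw [sum_const, nsmul_eq_mul]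
  have hball : ∀ r : ℝ, 0 ≤ r → volume (closedBall (0 : E n) r) = ENNReal.ofReal (r ^ n * ballVol n) := by
    intro r hr
    rw [← vol_closedBall 0 hr, measureReal_def, ENNReal.ofReal_toReal measure_closedBall_lt_top.ne]
  have hBvol : volume B = ENNReal.ofReal (ballVol n) := by rw [hB, hball 1 zero_le_one]; simp
  have i1 : ∫⁻ y0 in cube n R, p1 y0 ≤ (Xf.card : ℝ≥0∞) * ENNReal.ofReal (3 ^ n * ballVol n) := by
    refine (setLIntegral_le_lintegral _ _).trans ?_
    rw [show p1 = fun y0 => ∑ x ∈ Xf, (closedBall (0 : E n) 3).indicator (fun _ => (1:ℝ≥0∞)) (x - y0) from rfl,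
      lintegral_finsetSum _ (fun x _ => by
      exact (measurable_const.indicator measurableSet_closedBall).comp
        (measurable_const.sub measurable_id))]
    calc ∑ x ∈ Xf, ∫⁻ y0, (closedBall (0 : E n) 3).indicator (fun _ => (1:ℝ≥0∞)) (x - y0)
        = ∑ _x ∈ Xf, ENNReal.ofReal (3 ^ n * ballVol n) := by
          refine sum_congr rfl fun x _ => ?_
          rw [lintegral_sub_left_eq_self, lintegral_indicator_const measurableSet_closedBall,
            one_mul, hball 3 (by norm_num)]
      _ ≤ _ := by rw [sum_const, nsmul_eq_mul]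
  have i2 : ∫⁻ y0 in cube n R, p2 y0
      ≤ (Xf.card : ℝ≥0∞) * ENNReal.ofReal (8 * ballVol n * ballVol n) := by
    refine (hint _ measurable_wDepth).trans ?_
    rw [hBvol, mul_assoc, ENNReal.ofReal_mul (p := 8 * ballVol n) (by positivity)]
    gcongr
    exact lintegral_wDepth_le L
  have i3 : ∫⁻ y0 in cube n R, p3 y0
      ≤ (Xf.card : ℝ≥0∞) * ENNReal.ofReal (2 / (n : ℝ) ^ 4 * ballVol n * ballVol n) := by
    refine (hint _ measurable_wInner).trans ?_
    rw [hBvol, mul_assoc, ENNReal.ofReal_mul (p := 2 / (n : ℝ) ^ 4 * ballVol n) (by positivity)]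
    gcongr
    rw [show wInner n = (closedBall (0 : E n) (1 - uD n + eta n)).indicator (fun _ => 1) from rfl,
      lintegral_indicator_const measurableSet_closedBall, one_mul,
      hball _ (by linarith [L.hu, L.eta_pos])]
    exact ENNReal.ofReal_le_ofReal (mul_le_mul_of_nonneg_right (inner_radius_pow L) hV.le)
  have hm2 : Measurable p2 := (hjoint _ measurable_wDepth).lintegral_prod_right'
  have hm3 : Measurable p3 := (hjoint _ measurable_wInner).lintegral_prod_right'
  have iΦ : ∫⁻ y0 in cube n R, Φ y0 ≤ (Xf.card : ℝ≥0∞) * ENNReal.ofReal (3 * ballVol n) := by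
    simp only [Φ]
    have m12 : Measurable fun x => s1 * p1 x + s2 * p2 x := (hm1.const_mul s1).add (hm2.const_mul s2)
    rw [lintegral_add_left m12,
      lintegral_add_left (hm1.const_mul s1), lintegral_const_mul _ hm1, lintegral_const_mul _ hm2,
      lintegral_const_mul _ hm3]
    refine (add_le_add (add_le_add (mul_le_mul' le_rfl i1) (mul_le_mul' le_rfl i2))
      (mul_le_mul' le_rfl i3)).trans (le_of_eq ?_)
    simp only [s1, s2, s3]
    rw [← ENNReal.ofReal_natCast, ← ENNReal.ofReal_mul (by positivity),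
      ← ENNReal.ofReal_mul (by positivity), ← ENNReal.ofReal_mul (by positivity),
      ← ENNReal.ofReal_mul (by positivity), ← ENNReal.ofReal_mul (by positivity),
      ← ENNReal.ofReal_mul (by positivity), ← ENNReal.ofReal_add (by positivity) (by positivity),
      ← ENNReal.ofReal_add (by positivity) (by positivity), ← ENNReal.ofReal_mul (by positivity)]
    congr 1
    field_simp
    ring
  have hex : ∃ y0 ∈ cube n R, Φ y0 ≤ ENNReal.ofReal (24 * D) := by
    by_contra h
    push Not at h
    have h1 : ENNReal.ofReal (24 * D) * volume (cube n R) ≤ ∫⁻ y0 in cube n R, Φ y0 := by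
      rw [← setLIntegral_const]
      exact setLIntegral_mono' (measurableSet_cube R) fun y0 hy0 => (h y0 hy0).le
    have h2 := h1.trans iΦ
    rw [vol_cube hR.le, ← ENNReal.ofReal_mul (by positivity), ← ENNReal.ofReal_natCast,
      ← ENNReal.ofReal_mul (by positivity), ENNReal.ofReal_le_ofReal_iff (by positivity)] at h2
    have h3 := mul_le_mul_of_nonneg_right (hcount (R + 5) hR0) (show 0 ≤ 3 * ballVol n by positivity)
    have h4 : (2 * (R + 5)) ^ n < 2 * (2 * R) ^ n := by
      have e : (2 * (R + 5)) ^ n = (2 * R) ^ n * (1 + 5 / R) ^ n := by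
        rw [← mul_pow]; congr 1; field_simp
      rw [e, mul_comm (2:ℝ) ((2 * R) ^ n)]
      refine mul_lt_mul_of_pos_left ?_ (by positivity)
      refine lt_of_le_of_lt (pow_le_pow_left₀ (by positivity)
        (show 1 + 5 / R ≤ Real.exp (5 / R) by linarith [Real.add_one_le_exp (5 / R)]) n) ?_
      rw [← Real.exp_nat_mul]
      refine lt_of_le_of_lt (Real.exp_le_exp.2 (show (n:ℝ) * (5 / R) ≤ 1 / 2 by
        rw [← mul_div_assoc, div_le_iff₀ hR]; linarith)) ?_
      have := Real.exp_bound_div_one_sub_of_interval' (show (0:ℝ) < 1 / 2 by norm_num) (by norm_num)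
      norm_num at this ⊢
      linarith
    have h5 : 4 * D / ballVol n * (2 * (R + 5)) ^ n * (3 * ballVol n) = 12 * D * (2 * (R + 5)) ^ n := by
      field_simp; ring
    rw [h5] at h3
    nlinarith [mul_lt_mul_of_pos_left h4 (show 0 < 12 * D by positivity)]
  obtain ⟨y0, hy0, hΦ⟩ := hex
  refine ⟨y0, hy0, ?_, ?_, ?_⟩
  · have h : s1 * p1 y0 ≤ ENNReal.ofReal (24 * D) := le_trans (show s1 * p1 y0 ≤ s1 * p1 y0 + s2 * p2 y0 + s3 * p3 y0 from le_self_add.trans le_self_add) hΦ
    have h' := mul_le_mul' (le_refl (ENNReal.ofReal (3 ^ n : ℝ))) h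
    rw [← mul_assoc, ← ENNReal.ofReal_mul (by positivity), ← ENNReal.ofReal_mul (by positivity),
      mul_one_div_cancel (by positivity), ENNReal.ofReal_one, one_mul, mul_comm ((3:ℝ) ^ n)] at h'
    exact h'
  · have h : s2 * p2 y0 ≤ ENNReal.ofReal (24 * D) := le_trans (show s2 * p2 y0 ≤ s1 * p1 y0 + s2 * p2 y0 + s3 * p3 y0 from le_add_self.trans le_self_add) hΦ
    have h' := mul_le_mul' (le_refl (ENNReal.ofReal (8 * ballVol n))) h
    rw [← mul_assoc, ← ENNReal.ofReal_mul (by positivity), ← ENNReal.ofReal_mul (by positivity),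
      mul_one_div_cancel (by positivity), ENNReal.ofReal_one, one_mul,
      show 8 * ballVol n * (24 * D) = 192 * D * ballVol n by ring] at h'
    exact h'
  · have h : s3 * p3 y0 ≤ ENNReal.ofReal (24 * D) := le_trans (show s3 * p3 y0 ≤ s1 * p1 y0 + s2 * p2 y0 + s3 * p3 y0 from le_add_self) hΦ
    have h' := mul_le_mul' (le_refl (ENNReal.ofReal (2 * ballVol n / (n : ℝ) ^ 4))) h
    rw [← mul_assoc, ← ENNReal.ofReal_mul (by positivity), ← ENNReal.ofReal_mul (by positivity),
      show 2 * ballVol n / (n : ℝ) ^ 4 * ((n : ℝ) ^ 4 / (2 * ballVol n)) = 1 by field_simp,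
      ENNReal.ofReal_one, one_mul,
      show 2 * ballVol n / (n : ℝ) ^ 4 * (24 * D) = 48 * D / (n : ℝ) ^ 4 * ballVol n by ring] at h'
    exact h'

/-- The window: few centres, and half of the ball rounds to good test points. -/
theorem exists_window (L : Large n) (X : Set (E n)) (hX : ∀ r, (X ∩ closedBall 0 r).Finite)
    {D R0 : ℝ} (hD : 0 < D) (hD2 : D ≤ (n : ℝ) ^ 2)
    (hcount : ∀ R, R0 ≤ R → ((X ∩ cube n R).ncard : ℝ) ≤ 4 * D / ballVol n * (2 * R) ^ n) :
    ∃ (y0 : E n) (Xh : Finset (E n)), Xh ⊆ gridBox n ∧ (Xh.card : ℝ) ≤ 24 * D * 3 ^ n ∧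
      ballVol n / 2 ≤ ((goodY n (1000 * D) Xh).card : ℝ) * mesh n ^ n ∧
      ∀ x ∈ X, ‖x - y0‖ ≤ 3 → rnd (x - y0) ∈ Xh := by
  classical
  have hV := ballVol_pos (n := n)
  have hn := L.npos'
  have hη := L.eta_pos
  have hfinc : ∀ R, (X ∩ cube n R).Finite := by
    intro R
    refine (hX ((n : ℝ) * |R| + 1)).subset fun x hx => ⟨hx.1, ?_⟩
    rw [mem_closedBall, dist_zero_right, EuclideanSpace.norm_eq]
    refine Real.sqrt_le_iff.2 ⟨by positivity, ?_⟩
    calc ∑ i, ‖x i‖ ^ 2 ≤ ∑ _i : Fin n, |R| ^ 2 := by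
          refine sum_le_sum fun i _ => pow_le_pow_left₀ (norm_nonneg _) ?_ 2
          rw [Real.norm_eq_abs]; exact (hx.2 i).trans (le_abs_self R)
      _ = n * |R| ^ 2 := by simp
      _ ≤ _ := by
          nlinarith [mul_nonneg (mul_nonneg hn.le (sub_nonneg.2 (show (1:ℝ) ≤ n by linarith [L.ge'])))
            (sq_nonneg R), mul_nonneg hn.le (abs_nonneg R), sq_abs R]
  let T : ℝ → Finset (E n) := fun R => (hfinc R).toFinset
  obtain ⟨R, hR, y0, hy0, h1, h2, h3⟩ := exists_shift L T hD fun R hR => by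
    simp only [T]
    rw [← Set.ncard_eq_toFinset_card _ (hfinc R)]
    exact hcount R hR
  set Xs := ((T (R + 5)).image (fun x => x - y0)).filter (fun x => ‖x‖ ≤ 3) with hXs
  have hmemXs : ∀ x ∈ X, ‖x - y0‖ ≤ 3 → x - y0 ∈ Xs := by
    intro x hx hd
    refine mem_filter.2 ⟨mem_image.2 ⟨x, ?_, rfl⟩, hd⟩
    simp only [T, Set.Finite.mem_toFinset]
    refine ⟨hx, fun i => ?_⟩
    have h := (abs_coord_le_norm (x - y0) i).trans hd
    have e : x i = (x - y0) i + y0 i := by simp
    rw [e]
    refine (abs_add_le _ _).trans ?_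
    linarith [hy0 i]
  refine ⟨y0, Xs.image rnd, ?_, ?_, ?_, fun x hx hd => mem_image_of_mem _ (hmemXs x hx hd)⟩
  · intro g hg
    obtain ⟨x, hx, rfl⟩ := mem_image.1 hg
    refine mem_gridBox L.npos (isGrid_rnd x) ?_
    have := norm_rnd_sub_le L.npos x
    have := norm_le_norm_add_norm_sub' (rnd x) x
    linarith [(mem_filter.1 hx).2, L.mesh_small, L.eta_small]
  · have hc : ((Xs.card : ℕ) : ℝ≥0∞) ≤ ENNReal.ofReal (24 * D * 3 ^ n) := by
      refine le_trans ?_ h1
      have e : Xs.card = ((T (R + 5)).filter (fun x => x - y0 ∈ closedBall (0 : E n) 3)).card := by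
        rw [hXs, filter_image, card_image_of_injective _ (fun a b h => sub_left_injective h)]
        congr 1
        ext x
        simp
      rw [e, ← sum_boole]
      exact sum_le_sum fun x _ => le_of_eq (by by_cases h : x - y0 ∈ closedBall (0 : E n) 3 <;> simp [h])
    rw [← ENNReal.ofReal_natCast, ENNReal.ofReal_le_ofReal_iff (by positivity)] at hc
    exact (Nat.cast_le.2 card_image_le).trans hc
  · let W2 : E n → ℝ≥0∞ := fun y => ∑ x ∈ T (R + 5), wDepth n (y - (x - y0))
    let W3 : E n → ℝ≥0∞ := fun y => ∑ x ∈ T (R + 5), wInner n (y - (x - y0))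
    have m2 : Measurable W2 := Finset.measurable_sum _ fun x _ =>
      measurable_wDepth.comp (measurable_id.sub measurable_const)
    have m3 : Measurable W3 := Finset.measurable_sum _ fun x _ =>
      measurable_wInner.comp (measurable_id.sub measurable_const)
    let g : E n → ℝ≥0∞ := fun y => ENNReal.ofReal (1 / (1000 * D)) * W2 y + W3 y
    have hmark := mul_meas_ge_le_lintegral (μ := volume.restrict (closedBall (0 : E n) 1))
      (show Measurable g from (m2.const_mul _).add m3) 1
    have mg : MeasurableSet {y | 1 ≤ g y} := measurableSet_le measurable_const ((m2.const_mul _).add m3)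
    rw [one_mul, Measure.restrict_apply mg] at hmark
    have hbad : volume ({y | 1 ≤ g y} ∩ closedBall (0 : E n) 1) ≤ ENNReal.ofReal (ballVol n / 2) := by
      refine hmark.trans ?_
      simp only [g]
      rw [lintegral_add_left (m2.const_mul _), lintegral_const_mul _ m2]
      refine (add_le_add (mul_le_mul' le_rfl h2) h3).trans ?_
      rw [← ENNReal.ofReal_mul (by positivity), ← ENNReal.ofReal_add (by positivity) (by positivity)]
      refine ENNReal.ofReal_le_ofReal ?_
      rw [show 1 / (1000 * D) * (192 * D * ballVol n) = 192 / 1000 * ballVol n by field_simp]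
      have : 48 * D / (n : ℝ) ^ 4 ≤ 3 / 10 := by
        rw [div_le_iff₀ (by positivity)]
        have h100 : (10000:ℝ) ≤ (n:ℝ) ^ 2 := by nlinarith [L.ge']
        nlinarith [mul_le_mul_of_nonneg_left h100 (sq_nonneg (n:ℝ))]
      nlinarith [mul_le_mul_of_nonneg_right this hV.le]
    set G := closedBall (0 : E n) 1 \ {y | 1 ≤ g y} with hG
    have hGvol : ballVol n / 2 ≤ volume.real G := by
      have hsplit := measureReal_inter_add_sdiff (μ := volume) (s := closedBall (0 : E n) 1) mg
        measure_closedBall_lt_top.ne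
      have : volume.real ({y | 1 ≤ g y} ∩ closedBall (0 : E n) 1) ≤ ballVol n / 2 :=
        ENNReal.toReal_le_of_le_ofReal (by positivity) hbad
      rw [Set.inter_comm] at this
      rw [vol_closedBall 0 zero_le_one, one_pow, one_mul, ← hG] at hsplit
      linarith
    refine hGvol.trans (grid_count_ge L.npos _ (fun y hy => isGrid_of_mem_gridBox (mem_filter.1 hy).1)
      G fun y hy => ?_)
    obtain ⟨hy1, hy2⟩ := hy
    simp only [Set.mem_ofPred_eq, not_le] at hy2
    rw [mem_closedBall, dist_zero_right] at hy1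
    have hy' := norm_rnd_sub_le L.npos y
    have hny : ‖rnd y‖ ≤ 1 + eta n := by
      linarith [norm_le_norm_add_norm_sub' (rnd y) y, L.mesh_small, mul_nonneg hn.le (mesh_pos L.npos).le]
    have hW2 : W2 y ≤ ENNReal.ofReal (1000 * D) := by
      have h := (lt_of_le_of_lt le_self_add hy2).le
      have h' := mul_le_mul' (le_refl (ENNReal.ofReal (1000 * D))) h
      rw [← mul_assoc, ← ENNReal.ofReal_mul (by positivity), mul_one_div_cancel (by positivity),
        ENNReal.ofReal_one, one_mul, mul_one] at h'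
      exact h'
    have hW3 : W3 y < 1 := lt_of_le_of_lt le_add_self hy2
    have hclose : ∀ x : E n, ‖rnd y - rnd x‖ ≤ ‖y - x‖ + eta n ∧ ‖y - x‖ ≤ ‖rnd y - rnd x‖ + eta n := by
      intro x
      have hx' := norm_rnd_sub_le L.npos x
      have h := abs_norm_sub_norm_le (rnd y - rnd x) (y - x)
      have e : (rnd y - rnd x) - (y - x) = (rnd y - y) - (rnd x - x) := by abel
      rw [e] at h
      have h' := h.trans (norm_sub_le _ _)
      obtain ⟨a1, a2⟩ := abs_le.1 h'
      constructor <;> linarith [L.mesh_small]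
    have hsrc : ∀ g' ∈ Xs.image rnd, ∃ x ∈ T (R + 5), g' = rnd (x - y0) := by
      intro g' hg'
      obtain ⟨z, hz, rfl⟩ := mem_image.1 hg'
      obtain ⟨x, hx, rfl⟩ := mem_image.1 (mem_filter.1 hz).1
      exact ⟨x, hx, rfl⟩
    refine mem_filter.2 ⟨mem_gridBox L.npos (isGrid_rnd y) (by linarith [L.eta_small]), hny, ?_, ?_⟩
    · let S := (T (R + 5)).filter (fun x => ‖rnd y - rnd (x - y0)‖ ≤ 1 + eta n)
      have hsubA : alive n (Xs.image rnd) (rnd y) ⊆ S.image (fun x => rnd (x - y0)) := by
        intro g' hg'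
        obtain ⟨hg1, hg2⟩ := mem_filter.1 hg'
        obtain ⟨x, hx, rfl⟩ := hsrc g' hg1
        exact mem_image.2 ⟨x, mem_filter.2 ⟨hx, hg2⟩, rfl⟩
      let f : E n → ℝ := fun g' => 1 + n * (1 + eta n - ‖rnd y - g'‖)
      have hf : ∀ g' ∈ S.image (fun x => rnd (x - y0)), 0 ≤ f g' := by
        intro g' hg'
        obtain ⟨x, hx, rfl⟩ := mem_image.1 hg'
        have := mul_nonneg hn.le (sub_nonneg.2 (mem_filter.1 hx).2)
        simp only [f]; linarith
      have l1 : load n (Xs.image rnd) (rnd y) ≤ ∑ x ∈ S, f (rnd (x - y0)) :=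
        (sum_le_sum_of_subset_of_nonneg hsubA fun g' hg' _ => hf g' hg').trans
          (sum_image_le_of_nonneg hf)
      refine l1.trans ((ENNReal.ofReal_le_ofReal_iff (by positivity)).1 (le_trans ?_ hW2))
      rw [ENNReal.ofReal_sum_of_nonneg fun x hx => hf _ (mem_image_of_mem _ hx)]
      refine le_trans ?_ (sum_le_sum_of_subset (f := fun x => wDepth n (y - (x - y0)))
        (filter_subset _ _ : S ⊆ T (R + 5)))
      refine sum_le_sum fun x hx => ?_
      obtain ⟨a1, a2⟩ := hclose (x - y0)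
      have hin : y - (x - y0) ∈ closedBall (0 : E n) (1 + 2 * eta n) := by
        rw [mem_closedBall, dist_zero_right]; linarith [(mem_filter.1 hx).2]
      rw [wDepth, Set.indicator_of_mem hin]
      refine ENNReal.ofReal_le_ofReal (add_le_add le_rfl (mul_le_mul_of_nonneg_left ?_ hn.le))
      linarith
    · intro g' hg'
      obtain ⟨x, hx, rfl⟩ := hsrc g' hg'
      by_contra hcon
      push Not at hcon
      obtain ⟨a1, a2⟩ := hclose (x - y0)
      have hle := single_le_sum (f := fun x => wInner n (y - (x - y0))) (fun i _ => zero_le) hx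
      have hin : y - (x - y0) ∈ closedBall (0 : E n) (1 - uD n + eta n) := by
        rw [mem_closedBall, dist_zero_right]; linarith
      rw [wInner, Set.indicator_of_mem hin] at hle
      exact absurd (hle.trans_lt hW3) (lt_irrefl _)

end Vale.Agent.P230
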