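import Mathlib

/-!
Finite product Bernoulli expectations over subsets, Harris and a functional Janson bound.
-/

namespace Vale.Agent.P230

open Finset

variable {α : Type*} [DecidableEq α]

/-- Expectation over random subsets of `U`, each point kept independently with probability `p`. -/
noncomputable def Ex (p : ℝ) (U : Finset α) (f : Finset α → ℝ) : ℝ :=
  ∑ s ∈ U.powerset, p ^ s.card * (1 - p) ^ (U \ s).card * f s

variable {p : ℝ} {U : Finset α} {f g : Finset α → ℝ}

theorem ex_empty : Ex p ∅ f = f ∅ := by simp [Ex]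

theorem ex_insert {a : α} (ha : a ∉ U) :
    Ex p (insert a U) f = (1 - p) * Ex p U f + p * Ex p U (fun s => f (insert a s)) := by
  unfold Ex
  rw [sum_powerset_insert ha, mul_sum, mul_sum]
  congr 1
  · refine sum_congr rfl fun s hs => ?_
    have has : a ∉ s := fun h => ha (mem_powerset.1 hs h)
    rw [insert_sdiff_of_notMem _ has, card_insert_of_notMem (by simp [ha])]
    ring
  · refine sum_congr rfl fun s hs => ?_
    have has : a ∉ s := fun h => ha (mem_powerset.1 hs h)
    have h1 : insert a U \ insert a s = U \ s := by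
      ext x
      by_cases hx : x = a
      · subst hx; simp [ha]
      · simp [hx]
    rw [h1, card_insert_of_notMem has]
    ring

theorem ex_congr (h : ∀ s, f s = g s) : Ex p U f = Ex p U g := by
  rw [show f = g from funext h]

theorem ex_const (r : ℝ) : Ex p U (fun _ => r) = r := by
  induction U using Finset.induction_on with
  | empty => simp [ex_empty]
  | insert a U ha ih => rw [ex_insert ha, ih]; ring

theorem ex_add : Ex p U (fun s => f s + g s) = Ex p U f + Ex p U g := by
  unfold Ex
  rw [← sum_add_distrib]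
  exact sum_congr rfl fun s _ => by ring

theorem ex_sub : Ex p U (fun s => f s - g s) = Ex p U f - Ex p U g := by
  unfold Ex
  rw [← sum_sub_distrib]
  exact sum_congr rfl fun s _ => by ring

theorem ex_const_mul (r : ℝ) : Ex p U (fun s => r * f s) = r * Ex p U f := by
  unfold Ex
  rw [mul_sum]
  exact sum_congr rfl fun s _ => by ring

theorem ex_sum {ι : Type*} (T : Finset ι) (F : ι → Finset α → ℝ) :
    Ex p U (fun s => ∑ i ∈ T, F i s) = ∑ i ∈ T, Ex p U (F i) := by
  unfold Ex
  rw [sum_comm]
  exact sum_congr rfl fun s _ => mul_sum _ _ _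

theorem ex_mono (hp0 : 0 ≤ p) (hp1 : p ≤ 1) (h : ∀ s, f s ≤ g s) : Ex p U f ≤ Ex p U g := by
  refine sum_le_sum fun s _ => mul_le_mul_of_nonneg_left (h s) ?_
  have : (0:ℝ) ≤ 1 - p := by linarith
  positivity

theorem ex_nonneg (hp0 : 0 ≤ p) (hp1 : p ≤ 1) (h : ∀ s, 0 ≤ f s) : 0 ≤ Ex p U f := by
  have := ex_mono (U := U) hp0 hp1 (f := fun _ => (0:ℝ)) (g := f) h
  simpa [ex_const] using this

theorem exists_le_ex (hp0 : 0 ≤ p) (hp1 : p ≤ 1) (f : Finset α → ℝ) :
    ∃ s, s ⊆ U ∧ f s ≤ Ex p U f := by
  obtain ⟨s, hs, hmin⟩ := U.powerset.exists_min_image f ⟨∅, by simp⟩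
  refine ⟨s, mem_powerset.1 hs, ?_⟩
  have h2 : Ex p U (fun _ => f s) ≤ Ex p U f := by
    refine sum_le_sum fun t ht => mul_le_mul_of_nonneg_left (hmin t ht) ?_
    have : (0:ℝ) ≤ 1 - p := by linarith
    positivity
  simpa [ex_const] using h2

theorem ex_indicator_mul {a : α} (ha : a ∈ U) (f : Finset α → ℝ) :
    Ex p U (fun s => if a ∈ s then f s else 0) = p * Ex p U (fun s => f (insert a s)) := by
  obtain ⟨U', hU', rfl⟩ : ∃ U', a ∉ U' ∧ insert a U' = U :=
    ⟨U.erase a, notMem_erase a U, insert_erase ha⟩
  rw [ex_insert hU', ex_insert hU']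
  have h1 : Ex p U' (fun s => if a ∈ s then f s else 0) = 0 := by
    refine sum_eq_zero fun s hs => ?_
    have has : a ∉ s := fun h => hU' (mem_powerset.1 hs h)
    simp [has]
  have h2 : Ex p U' (fun s => if a ∈ insert a s then f (insert a s) else 0)
      = Ex p U' (fun s => f (insert a s)) := ex_congr fun s => by simp
  have h3 : Ex p U' (fun s => f (insert a (insert a s)))
      = Ex p U' (fun s => f (insert a s)) := ex_congr fun s => by simp
  rw [h1, h2, h3]; ring

theorem ex_card : Ex p U (fun s => (s.card : ℝ)) = p * U.card := by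
  induction U using Finset.induction_on with
  | empty => simp [ex_empty]
  | insert a U ha ih =>
    rw [ex_insert ha, ih, card_insert_of_notMem ha]
    have h : Ex p U (fun s => ((insert a s).card : ℝ))
        = Ex p U (fun s => (s.card : ℝ) + 1) := by
      refine sum_congr rfl fun s hs => ?_
      have has : a ∉ s := fun h => ha (mem_powerset.1 hs h)
      simp only [card_insert_of_notMem has]; push_cast; ring
    rw [h, ex_add, ih, ex_const]; push_cast; ring

/-- Harris inequality. -/
theorem harris (hp0 : 0 ≤ p) (hp1 : p ≤ 1) :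
    ∀ (f g : Finset α → ℝ), Monotone f → Monotone g →
      Ex p U f * Ex p U g ≤ Ex p U (fun s => f s * g s) := by
  induction U using Finset.induction_on with
  | empty => intro f g _ _; simp [ex_empty]
  | insert a U ha ih =>
    intro f g hf hg
    have hins : Monotone (fun s : Finset α => insert a s) :=
      fun s t hst => insert_subset_insert a hst
    have h0 := ih f g hf hg
    have h1 := ih _ _ (hf.comp hins) (hg.comp hins)
    simp only [Function.comp_def] at h1
    have hF : Ex p U f ≤ Ex p U (fun s => f (insert a s)) :=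
      ex_mono hp0 hp1 fun s => hf (subset_insert a s)
    have hG : Ex p U g ≤ Ex p U (fun s => g (insert a s)) :=
      ex_mono hp0 hp1 fun s => hg (subset_insert a s)
    rw [ex_insert ha, ex_insert ha, ex_insert ha]
    have hq : 0 ≤ 1 - p := by linarith
    nlinarith [mul_le_mul_of_nonneg_left h0 hq, mul_le_mul_of_nonneg_left h1 hp0,
      mul_nonneg (mul_nonneg hq hp0) (mul_nonneg (sub_nonneg.2 hF) (sub_nonneg.2 hG))]

/-- Functions of disjoint sets of coordinates are independent. -/
theorem ex_mul_indep (A : Finset α) :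
    ∀ (f g : Finset α → ℝ), (∀ a ∉ A, ∀ s, f (insert a s) = f s) →
      (∀ a ∈ A, ∀ s, g (insert a s) = g s) →
      Ex p U (fun s => f s * g s) = Ex p U f * Ex p U g := by
  induction U using Finset.induction_on with
  | empty => intro f g _ _; simp [ex_empty]
  | insert a U ha ih =>
    intro f g hf hg
    rw [ex_insert ha, ex_insert ha, ex_insert ha]
    have hf' : ∀ b ∉ A, ∀ s, f (insert a (insert b s)) = f (insert a s) := by
      intro b hb s; rw [Finset.insert_comm, hf b hb]
    have hg' : ∀ b ∈ A, ∀ s, g (insert a (insert b s)) = g (insert a s) := by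
      intro b hb s; rw [Finset.insert_comm, hg b hb]
    rw [ih f g hf hg, ih _ _ hf' hg']
    by_cases haA : a ∈ A
    · rw [show Ex p U (fun s => g (insert a s)) = Ex p U g from ex_congr (hg a haA)]; ring
    · rw [show Ex p U (fun s => f (insert a s)) = Ex p U f from ex_congr (hf a haA)]; ring

/-- Functional Janson inequality for increasing functions with given supports. -/
theorem janson {ι : Type*} [DecidableEq ι] (hp0 : 0 ≤ p) (hp1 : p ≤ 1) (T : Finset ι)
    (F : ι → Finset α → ℝ) (A : ι → Finset α)
    (h0 : ∀ i ∈ T, ∀ s, 0 ≤ F i s) (h1 : ∀ i ∈ T, ∀ s, F i s ≤ 1)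
    (hm : ∀ i ∈ T, Monotone (F i))
    (hA : ∀ i ∈ T, ∀ a ∉ A i, ∀ s, F i (insert a s) = F i s) :
    Ex p U (fun s => ∏ i ∈ T, (1 - F i s)) ≤
      Real.exp (-(∑ i ∈ T, Ex p U (F i)) +
        ∑ i ∈ T, ∑ j ∈ T, if Disjoint (A i) (A j) then 0 else Ex p U (fun s => F i s * F j s)) := by
  induction T using Finset.induction_on with
  | empty => simp [ex_const]
  | insert k T hk ih =>
    have h0' : ∀ i ∈ T, ∀ s, 0 ≤ F i s := fun i hi => h0 i (mem_insert_of_mem hi)
    have h1' : ∀ i ∈ T, ∀ s, F i s ≤ 1 := fun i hi => h1 i (mem_insert_of_mem hi)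
    have hm' : ∀ i ∈ T, Monotone (F i) := fun i hi => hm i (mem_insert_of_mem hi)
    have hA' : ∀ i ∈ T, ∀ a ∉ A i, ∀ s, F i (insert a s) = F i s :=
      fun i hi => hA i (mem_insert_of_mem hi)
    have ih := ih h0' h1' hm' hA'
    have hk0 := h0 k (mem_insert_self k T)
    have hk1 := h1 k (mem_insert_self k T)
    have hkm := hm k (mem_insert_self k T)
    have hkA := hA k (mem_insert_self k T)
    set D := T.filter (fun j => ¬ Disjoint (A k) (A j)) with hD
    set I := T.filter (fun j => Disjoint (A k) (A j)) with hI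
    set b := Ex p U (F k) - ∑ j ∈ D, Ex p U (fun s => F j s * F k s) with hb
    let P : Finset α → ℝ := fun s => ∏ j ∈ T, (1 - F j s)
    let PI : Finset α → ℝ := fun s => ∏ j ∈ I, (1 - F j s)
    have hP0 : ∀ s, 0 ≤ P s := fun s => prod_nonneg fun j hj => by linarith [h1' j hj s]
    have hPI0 : ∀ s, 0 ≤ PI s := fun s =>
      prod_nonneg fun j hj => by linarith [h1' j (mem_of_mem_filter j hj) s]
    have hsplit : ∀ s, P s = PI s * ∏ j ∈ D, (1 - F j s) := fun s =>
      (prod_filter_mul_prod_filter_not T (fun j => Disjoint (A k) (A j)) _).symm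
    have hPle : ∀ s, P s ≤ PI s := by
      intro s
      rw [hsplit]
      refine mul_le_of_le_one_right (hPI0 s) (prod_le_one (fun j hj => ?_) (fun j hj => ?_))
      · linarith [h1' j (mem_of_mem_filter j hj) s]
      · linarith [h0' j (mem_of_mem_filter j hj) s]
    have hlow : ∀ s, F k s * PI s - ∑ j ∈ D, PI s * (F j s * F k s) ≤ F k s * P s := by
      intro s
      have hW : 1 - ∑ j ∈ D, F j s ≤ ∏ j ∈ D, (1 - F j s) := by
        have key : ∀ D' ⊆ D, 1 - ∑ j ∈ D', F j s ≤ ∏ j ∈ D', (1 - F j s) := by
          intro D' hD'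
          induction D' using Finset.induction_on with
          | empty => simp
          | insert j D' hj ihj =>
            have hjT : j ∈ T := mem_of_mem_filter j (hD' (mem_insert_self j D'))
            have := ihj ((subset_insert j D').trans hD')
            rw [prod_insert hj, sum_insert hj]
            have e1 := h0' j hjT s
            have e2 := h1' j hjT s
            have e3 : 0 ≤ ∑ i ∈ D', F i s := sum_nonneg fun i hi =>
              h0' i (mem_of_mem_filter i (hD' (mem_insert_of_mem hi))) s
            nlinarith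
        exact key D Subset.rfl
      rw [hsplit, ← mul_sum, ← sum_mul]
      have := mul_le_mul_of_nonneg_left hW (mul_nonneg (hk0 s) (hPI0 s))
      nlinarith
    have hind : Ex p U (fun s => F k s * PI s) = Ex p U (F k) * Ex p U PI := by
      refine ex_mul_indep (A k) _ _ hkA fun a ha s => ?_
      refine prod_congr rfl fun j hj => ?_
      have hj' := mem_filter.1 hj
      rw [hA' j hj'.1 a (fun h => Finset.disjoint_left.1 hj'.2 ha h)]
    have hanti : Monotone (fun s => - PI s) := by
      intro s t hst
      refine neg_le_neg (prod_le_prod (fun j hj => ?_) (fun j hj => ?_))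
      · linarith [h1' j (mem_of_mem_filter j hj) t]
      · linarith [hm' j (mem_of_mem_filter j hj) hst]
    have hpair : ∀ j ∈ D, Ex p U (fun s => PI s * (F j s * F k s))
        ≤ Ex p U PI * Ex p U (fun s => F j s * F k s) := by
      intro j hj
      have hjT := mem_of_mem_filter j hj
      have hmono : Monotone (fun s => F j s * F k s) := fun s t hst =>
        mul_le_mul (hm' j hjT hst) (hkm hst) (hk0 s) (h0' j hjT t)
      have := harris (U := U) hp0 hp1 _ _ hanti hmono
      have e1 : Ex p U (fun s => -PI s) = - Ex p U PI := by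
        rw [show (fun s => -PI s) = (fun s => (-1:ℝ) * PI s) by ext s; ring, ex_const_mul]; ring
      have e2 : Ex p U (fun s => -PI s * (F j s * F k s))
          = - Ex p U (fun s => PI s * (F j s * F k s)) := by
        rw [show (fun s => -PI s * (F j s * F k s))
          = (fun s => (-1:ℝ) * (PI s * (F j s * F k s))) by ext s; ring, ex_const_mul]; ring
      rw [e1, e2] at this
      linarith
    have hmain : Ex p U PI * b ≤ Ex p U (fun s => F k s * P s) := by
      refine le_trans ?_ (ex_mono hp0 hp1 hlow)
      rw [ex_sub, ex_sum, hind, hb, mul_sub, mul_sum]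
      linarith [sum_le_sum hpair]
    have hEP : 0 ≤ Ex p U P := ex_nonneg hp0 hp1 hP0
    have hstep : Ex p U (fun s => ∏ i ∈ insert k T, (1 - F i s)) ≤ Ex p U P * Real.exp (-b) := by
      have he : Ex p U (fun s => ∏ i ∈ insert k T, (1 - F i s))
          = Ex p U P - Ex p U (fun s => F k s * P s) := by
        rw [← ex_sub]
        refine ex_congr fun s => ?_
        rw [prod_insert hk]; ring
      rw [he]
      rcases le_total b 0 with hb0 | hb0
      · have hge : 0 ≤ Ex p U (fun s => F k s * P s) :=
          ex_nonneg hp0 hp1 fun s => mul_nonneg (hk0 s) (hP0 s)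
        have hexp : 1 ≤ Real.exp (-b) := Real.one_le_exp (by linarith)
        nlinarith
      · have h2 : Ex p U P * b ≤ Ex p U (fun s => F k s * P s) :=
          (mul_le_mul_of_nonneg_right (ex_mono hp0 hp1 hPle) hb0).trans hmain
        have hexp := Real.add_one_le_exp (-b)
        nlinarith
    refine hstep.trans ((mul_le_mul_of_nonneg_right ih (Real.exp_pos _).le).trans ?_)
    rw [← Real.exp_add]
    apply Real.exp_le_exp.2
    let G : ι → ι → ℝ := fun i j =>
      if Disjoint (A i) (A j) then 0 else Ex p U (fun s => F i s * F j s)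
    have hG0 : ∀ i ∈ insert k T, ∀ j ∈ insert k T, 0 ≤ G i j := by
      intro i hi j hj
      simp only [G]
      split_ifs
      · exact le_rfl
      · exact ex_nonneg hp0 hp1 fun s => mul_nonneg (h0 i hi s) (h0 j hj s)
    have e1 : ∑ j ∈ D, Ex p U (fun s => F j s * F k s) = ∑ j ∈ T, G k j := by
      rw [hD, sum_filter]
      refine sum_congr rfl fun j _ => ?_
      simp only [G]
      split_ifs
      · rfl
      · exact ex_congr fun s => by ring
    have e2 : ∑ i ∈ T, ∑ j ∈ T, G i j + ∑ j ∈ T, G k j
        ≤ ∑ i ∈ insert k T, ∑ j ∈ insert k T, G i j := by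
      rw [sum_insert hk, sum_insert hk]
      have h3 : ∑ i ∈ T, ∑ j ∈ T, G i j ≤ ∑ i ∈ T, ∑ j ∈ insert k T, G i j :=
        sum_le_sum fun i hi => by
          rw [sum_insert hk]
          linarith [hG0 i (mem_insert_of_mem hi) k (mem_insert_self k T)]
      linarith [hG0 k (mem_insert_self k T) k (mem_insert_self k T)]
    have e3 : ∑ i ∈ insert k T, Ex p U (F i) = Ex p U (F k) + ∑ i ∈ T, Ex p U (F i) :=
      sum_insert hk
    rw [hb, e1, e3]
    simp only [G] at e2 ⊢
    linarith

end Vale.Agent.P230
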