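import Mathlib
import Vale.Agent.P230.Product

/-!
Greedy witness polynomial for a list of atom sets and its moment and entropy bounds.
-/

namespace Vale.Agent.P230

open Finset

variable {α : Type*} [DecidableEq α]

/-- Greedy witness polynomial: pick a uniform atom of the first set, delete the sets it meets. -/
noncomputable def wit (p : ℝ) : List (Finset α) → Finset α → ℝ
  | [], _ => 1
  | C :: l, s =>
    (∑ a ∈ C, if a ∈ s then wit p (l.filter (fun D => decide (a ∉ D))) s else 0) / (p * C.card)
termination_by l => l.length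
decreasing_by
  simp only [List.length_cons, List.length_unattach]
  exact Nat.lt_succ_of_le ((List.length_filter_le _ _).trans (by simp))

/-- Inflation factor of an atom: one plus the inverse weights of the sets that contain it. -/
noncomputable def infl (p : ℝ) (l : List (Finset α)) (b : α) : ℝ :=
  1 + (l.map (fun D => if b ∈ D then 1 / (p * (D.card : ℝ)) else 0)).sum

variable {p : ℝ}

theorem filter_length_le (l : List (Finset α)) (a : α) :
    (l.filter (fun D => decide (a ∉ D))).length ≤ l.length := List.length_filter_le _ _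

/-- Induction along the recursion of `wit`. -/
theorem wit_induction {motive : List (Finset α) → Prop} (hnil : motive [])
    (hcons : ∀ C l, (∀ l', l'.Sublist l → motive l') → motive (C :: l)) :
    ∀ l, motive l := by
  suffices h : ∀ n, ∀ l : List (Finset α), l.length ≤ n → motive l from fun l => h _ l le_rfl
  intro n
  induction n with
  | zero =>
    intro l hl
    obtain rfl : l = [] := List.length_eq_zero_iff.1 (Nat.le_zero.1 hl)
    exact hnil
  | succ n ih =>
    intro l hl
    match l with
    | [] => exact hnil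
    | C :: l =>
      exact hcons C l fun l' hl' => ih l' (hl'.length_le.trans (Nat.le_of_succ_le_succ hl))

theorem filter_sub (l : List (Finset α)) (a : α) :
    (l.filter (fun D => decide (a ∉ D))).Sublist l := List.filter_sublist

theorem wit_nonneg (hp : 0 ≤ p) : ∀ l : List (Finset α), ∀ s, 0 ≤ wit p l s := by
  refine wit_induction (fun s => by simp [wit]) fun C l ih s => ?_
  rw [wit]
  refine div_nonneg (sum_nonneg fun a _ => ?_) (by positivity)
  split_ifs
  · exact ih _ (filter_sub l a) s
  · exact le_rfl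

theorem wit_mono (hp : 0 ≤ p) : ∀ l : List (Finset α), Monotone (wit p l) := by
  refine wit_induction (fun s t _ => by simp [wit]) fun C l ih s t hst => ?_
  rw [wit, wit]
  refine div_le_div_of_nonneg_right (sum_le_sum fun a _ => ?_) (by positivity)
  by_cases ha : a ∈ s
  · rw [if_pos ha, if_pos (hst ha)]
    exact ih _ (filter_sub l a) hst
  · rw [if_neg ha]
    split_ifs
    · exact wit_nonneg hp _ t
    · exact le_rfl

theorem wit_local : ∀ l : List (Finset α), ∀ s t : Finset α,
    (∀ C ∈ l, ∀ a ∈ C, (a ∈ s ↔ a ∈ t)) → wit p l s = wit p l t := by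
  refine wit_induction (fun s t _ => by simp [wit]) fun C l ih s t h => ?_
  rw [wit, wit]
  congr 1
  refine sum_congr rfl fun a ha => ?_
  have hw := ih _ (filter_sub l a) s t
    fun D hD b hb => h D (List.mem_cons_of_mem _ (List.mem_of_mem_filter hD)) b hb
  by_cases has : a ∈ s
  · rw [if_pos has, if_pos ((h C List.mem_cons_self a ha).1 has), hw]
  · rw [if_neg has, if_neg (fun h' => has ((h C List.mem_cons_self a ha).2 h'))]

theorem wit_insert {l : List (Finset α)} {a : α} (h : ∀ C ∈ l, a ∉ C) (s : Finset α) :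
    wit p l (insert a s) = wit p l s := by
  refine wit_local l _ _ fun C hC b hb => ?_
  have : b ≠ a := fun e => h C hC (e ▸ hb)
  simp [this]

theorem filter_avoid (l : List (Finset α)) (a : α) :
    ∀ D ∈ l.filter (fun D => decide (a ∉ D)), a ∉ D := fun D hD => by
  simpa using (List.mem_filter.1 hD).2

theorem wit_ne_zero : ∀ l : List (Finset α), ∀ s, wit p l s ≠ 0 →
    ∀ C ∈ l, ∃ a ∈ C, a ∈ s := by
  refine wit_induction (fun s _ C hC => absurd hC (List.not_mem_nil)) fun C l ih s hs D hD => ?_
  rw [wit] at hs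
  obtain ⟨a, haC, ha⟩ := exists_ne_zero_of_sum_ne_zero (div_ne_zero_iff.1 hs).1
  by_cases has : a ∈ s
  swap
  · rw [if_neg has] at ha; exact absurd rfl ha
  rw [if_pos has] at ha
  rcases List.mem_cons.1 hD with rfl | hD
  · exact ⟨a, haC, has⟩
  · by_cases haD : a ∈ D
    · exact ⟨a, haD, has⟩
    · exact ih _ (filter_sub l a) s ha D (List.mem_filter.2 ⟨hD, by simpa using haD⟩)

theorem infl_one_le (hp : 0 ≤ p) (l : List (Finset α)) (b : α) : 1 ≤ infl p l b := by
  have : 0 ≤ (l.map (fun D => if b ∈ D then 1 / (p * (D.card : ℝ)) else 0)).sum := by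
    refine List.sum_nonneg fun x hx => ?_
    obtain ⟨D, -, rfl⟩ := List.mem_map.1 hx
    split_ifs <;> positivity
  unfold infl; linarith

theorem infl_sublist (hp : 0 ≤ p) {l' l : List (Finset α)} (h : l'.Sublist l) (b : α) :
    infl p l' b ≤ infl p l b := by
  unfold infl
  refine add_le_add le_rfl ((h.map _).sum_le_sum fun x hx => ?_)
  obtain ⟨D, -, rfl⟩ := List.mem_map.1 hx
  split_ifs <;> positivity

theorem infl_cons (C : Finset α) (l : List (Finset α)) (b : α) :
    infl p (C :: l) b = infl p l b + if b ∈ C then 1 / (p * (C.card : ℝ)) else 0 := by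
  simp only [infl, List.map_cons, List.sum_cons]; ring

theorem infl_avoid {l : List (Finset α)} {b : α} (h : ∀ D ∈ l, b ∉ D) : infl p l b = 1 := by
  have : (l.map (fun D => if b ∈ D then 1 / (p * (D.card : ℝ)) else 0)).sum = 0 :=
    List.sum_eq_zero fun x hx => by
      obtain ⟨D, hD, rfl⟩ := List.mem_map.1 hx
      simp [h D hD]
  rw [infl, this, add_zero]

theorem sum_list_comm (A : Finset α) (l : List (Finset α)) (f : α → Finset α → ℝ) :
    ∑ b ∈ A, (l.map (f b)).sum = (l.map (fun D => ∑ b ∈ A, f b D)).sum := by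
  induction l with
  | nil => simp
  | cons D l ih => simp [sum_add_distrib, ih]

theorem sum_infl_sub_one (A : Finset α) (l : List (Finset α)) :
    ∑ b ∈ A, (infl p l b - 1) = (l.map (fun D => ((A ∩ D).card : ℝ) / (p * D.card))).sum := by
  simp only [infl, add_sub_cancel_left]
  rw [sum_list_comm]
  congr 1
  refine List.map_congr_left fun D _ => ?_
  rw [← sum_filter, filter_mem_eq_inter, sum_const, nsmul_eq_mul, mul_one_div]

theorem prod_add_single (S : Finset α) (x t : α → ℝ) (hx : ∀ b ∈ S, 0 ≤ x b)
    (ht : ∀ b ∈ S, 0 ≤ t b) :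
    (∏ b ∈ S, x b) + ∑ a ∈ S, t a * ∏ b ∈ S.erase a, x b ≤ ∏ b ∈ S, (x b + t b) := by
  induction S using Finset.induction_on with
  | empty => simp
  | insert c S hc ih =>
    have hx' : ∀ b ∈ S, 0 ≤ x b := fun b hb => hx b (mem_insert_of_mem hb)
    have ht' : ∀ b ∈ S, 0 ≤ t b := fun b hb => ht b (mem_insert_of_mem hb)
    have ih := ih hx' ht'
    rw [prod_insert hc, prod_insert hc, sum_insert hc, erase_insert hc]
    have e : ∑ a ∈ S, t a * ∏ b ∈ (insert c S).erase a, x b
        = x c * ∑ a ∈ S, t a * ∏ b ∈ S.erase a, x b := by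
      rw [mul_sum]
      refine sum_congr rfl fun a ha => ?_
      rw [erase_insert_of_ne (by rintro rfl; exact hc ha),
        prod_insert (fun h => hc (mem_of_mem_erase h))]
      ring
    rw [e]
    have hxc := hx c (mem_insert_self c S)
    have htc := ht c (mem_insert_self c S)
    have hP : ∏ b ∈ S, x b ≤ ∏ b ∈ S, (x b + t b) :=
      prod_le_prod hx' fun b hb => by linarith [ht' b hb]
    nlinarith [mul_le_mul_of_nonneg_left ih hxc, mul_le_mul_of_nonneg_left hP htc]

theorem prod_sublist_le {l' l : List ℝ} (h : l'.Sublist l) (h1 : ∀ x ∈ l, 1 ≤ x) :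
    l'.prod ≤ l.prod := by
  induction h with
  | slnil => simp
  | @cons l₁ l₂ a h ih =>
    have h2 := ih fun x hx => h1 x (List.mem_cons_of_mem _ hx)
    have h3 : 0 ≤ l₂.prod :=
      List.prod_nonneg fun x hx => zero_le_one.trans (h1 x (List.mem_cons_of_mem _ hx))
    rw [List.prod_cons]
    exact h2.trans (le_mul_of_one_le_left h3 (h1 a List.mem_cons_self))
  | @cons_cons l₁ l₂ a h ih =>
    rw [List.prod_cons, List.prod_cons]
    exact mul_le_mul_of_nonneg_left (ih fun x hx => h1 x (List.mem_cons_of_mem _ hx))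
      (zero_le_one.trans (h1 a List.mem_cons_self))

variable [Fintype α]

theorem ex_wit (hp : 0 < p) : ∀ l : List (Finset α), (∀ C ∈ l, C.Nonempty) →
    Ex p univ (wit p l) = 1 := by
  refine wit_induction (fun _ => by
    rw [ex_congr (g := fun _ => (1:ℝ)) (fun s => by simp [wit]), ex_const]) fun C l ih hne => ?_
  have hC : (0:ℝ) < C.card := by exact_mod_cast (hne C List.mem_cons_self).card_pos
  rw [ex_congr (g := fun s => (p * C.card)⁻¹ *
      ∑ a ∈ C, if a ∈ s then wit p (l.filter (fun D => decide (a ∉ D))) s else 0)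
    (fun s => by rw [wit, div_eq_inv_mul]), ex_const_mul, ex_sum]
  have : ∀ a ∈ C, Ex p univ (fun s => if a ∈ s then
      wit p (l.filter (fun D => decide (a ∉ D))) s else 0) = p := by
    intro a _
    rw [ex_indicator_mul (mem_univ a), ex_congr (wit_insert (filter_avoid l a)),
      ih _ (filter_sub l a) fun D hD =>
        hne D (List.mem_cons_of_mem _ (List.mem_of_mem_filter hD)), mul_one]
  rw [sum_congr rfl this, sum_const, nsmul_eq_mul]
  field_simp

theorem ex_wit_forced (hp : 0 < p) (hp1 : p ≤ 1) : ∀ l : List (Finset α),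
    (∀ C ∈ l, C.Nonempty) → ∀ S : Finset α,
      Ex p univ (fun s => wit p l (s ∪ S)) ≤ ∏ b ∈ S, infl p l b := by
  refine wit_induction (fun _ S => ?_) fun C l ih hne S => ?_
  · rw [ex_congr (g := fun _ => (1:ℝ)) (fun s => by simp [wit]), ex_const]
    simp [infl]
  have hC : (0:ℝ) < C.card := by exact_mod_cast (hne C List.mem_cons_self).card_pos
  have hne' : ∀ a, ∀ D ∈ l.filter (fun D => decide (a ∉ D)), D.Nonempty :=
    fun a D hD => hne D (List.mem_cons_of_mem _ (List.mem_of_mem_filter hD))
  rw [ex_congr (g := fun s => (p * C.card)⁻¹ *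
      ∑ a ∈ C, if a ∈ s ∪ S then wit p (l.filter (fun D => decide (a ∉ D))) (s ∪ S) else 0)
    (fun s => by rw [wit, div_eq_inv_mul]), ex_const_mul, ex_sum]
  let Q : ℝ := ∏ b ∈ S, infl p l b
  let E' : α → ℝ := fun a => ∏ b ∈ S.erase a, infl p l b
  have hterm : ∀ a ∈ C, Ex p univ (fun s => if a ∈ s ∪ S then
      wit p (l.filter (fun D => decide (a ∉ D))) (s ∪ S) else 0)
      ≤ p * Q + if a ∈ S then E' a else 0 := by
    intro a _
    set la := l.filter (fun D => decide (a ∉ D)) with hla
    have hle : ∀ T : Finset α, ∏ b ∈ T, infl p la b ≤ ∏ b ∈ T, infl p l b := fun T =>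
      prod_le_prod (fun b _ => le_trans zero_le_one (infl_one_le hp.le la b))
        fun b _ => infl_sublist hp.le (filter_sub l a) b
    by_cases haS : a ∈ S
    · rw [if_pos haS]
      have e : ∀ s, (if a ∈ s ∪ S then wit p la (s ∪ S) else 0) = wit p la (s ∪ S.erase a) := by
        intro s
        rw [if_pos (mem_union_right s haS)]
        refine wit_local la _ _ fun D hD b hb => ?_
        have : b ≠ a := fun h => filter_avoid l a D hD (h ▸ hb)
        simp [this]
      rw [ex_congr e]
      have hQ : 0 ≤ p * Q :=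
        mul_nonneg hp.le (prod_nonneg fun b _ => le_trans zero_le_one (infl_one_le hp.le l b))
      linarith [(ih la (filter_sub l a) (hne' a) (S.erase a)).trans (hle (S.erase a))]
    · rw [if_neg haS, add_zero]
      have e : ∀ s, (if a ∈ s ∪ S then wit p la (s ∪ S) else 0)
          = if a ∈ s then wit p la (s ∪ S) else 0 := by
        intro s; simp [haS]
      rw [ex_congr e, ex_indicator_mul (mem_univ a),
        ex_congr (g := fun s => wit p la (s ∪ S))
          (fun s => by rw [insert_union, wit_insert (filter_avoid l a)])]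
      exact mul_le_mul_of_nonneg_left
        ((ih la (filter_sub l a) (hne' a) S).trans (hle S)) hp.le
  refine (mul_le_mul_of_nonneg_left (sum_le_sum hterm) (by positivity)).trans ?_
  rw [sum_add_distrib, sum_const, nsmul_eq_mul]
  have key := prod_add_single S (infl p l) (fun b => if b ∈ C then 1 / (p * (C.card : ℝ)) else 0)
    (fun b _ => le_trans zero_le_one (infl_one_le hp.le l b))
    (fun b _ => by split_ifs <;> positivity)
  have e2 : ∑ a ∈ C, (if a ∈ S then E' a else 0) = ∑ a ∈ S, if a ∈ C then E' a else 0 := by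
    rw [← sum_filter, ← sum_filter, filter_mem_eq_inter, filter_mem_eq_inter, inter_comm]
  rw [prod_congr rfl (fun b _ => infl_cons C l b)]
  refine le_trans (le_of_eq ?_) key
  rw [e2, mul_add, mul_sum]
  congr 1
  · field_simp; rfl
  · refine sum_congr rfl fun a _ => ?_
    split_ifs
    · rw [one_div]
    · ring

theorem ex_wit_mem (hp : 0 < p) (hp1 : p ≤ 1) (l : List (Finset α)) (hne : ∀ C ∈ l, C.Nonempty)
    (b : α) : Ex p univ (fun s => if b ∈ s then wit p l s else 0) ≤ p * infl p l b := by
  rw [ex_indicator_mul (mem_univ b)]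
  refine mul_le_mul_of_nonneg_left ?_ hp.le
  have := ex_wit_forced hp hp1 l hne {b}
  rw [prod_singleton] at this
  refine le_of_eq_of_le (ex_congr fun s => ?_) this
  rw [union_comm, ← insert_eq]

/-- Averaged inflation of a set of atoms. -/
theorem avg_infl (C : Finset α) (hC : C.Nonempty) (l : List (Finset α)) :
    (∑ a ∈ C, infl p l a) / C.card
      = 1 + (l.map (fun D => ((C ∩ D).card : ℝ) / (p * D.card))).sum / C.card := by
  have h0 : (C.card : ℝ) ≠ 0 := by exact_mod_cast hC.card_pos.ne'
  rw [← sum_infl_sub_one, sum_sub_distrib, sum_const, nsmul_one]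
  field_simp
  ring

theorem ex_wit_cross (hp : 0 < p) (hp1 : p ≤ 1) (l2 : List (Finset α))
    (h2 : ∀ C ∈ l2, C.Nonempty) : ∀ l1 : List (Finset α), (∀ C ∈ l1, C.Nonempty) →
    ∀ S : Finset α, (∀ C ∈ l1, Disjoint S C) →
      Ex p univ (fun s => wit p l1 (s ∪ S) * wit p l2 (s ∪ S)) ≤
        (∏ b ∈ S, infl p l2 b) *
          (l1.map (fun C => (∑ a ∈ C, infl p l2 a) / C.card)).prod := by
  refine wit_induction (fun _ S _ => ?_) fun C l ih hne S hS => ?_
  · rw [ex_congr (g := fun s => wit p l2 (s ∪ S)) (fun s => by simp [wit])]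
    simpa using ex_wit_forced hp hp1 l2 h2 S
  have hC : (0:ℝ) < C.card := by exact_mod_cast (hne C List.mem_cons_self).card_pos
  rw [ex_congr (g := fun s => (p * C.card)⁻¹ * ∑ a ∈ C, if a ∈ s then
      wit p (l.filter (fun D => decide (a ∉ D))) (s ∪ S) * wit p l2 (s ∪ S) else 0)
    (fun s => by
      rw [wit, div_eq_inv_mul, mul_assoc, sum_mul]
      congr 1
      refine sum_congr rfl fun a ha => ?_
      have : a ∉ S := fun h => Finset.disjoint_left.1 (hS C List.mem_cons_self) h ha
      simp only [mem_union, this, or_false, ite_mul, zero_mul]), ex_const_mul, ex_sum]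
  have hone : ∀ D : Finset α, D.Nonempty → 1 ≤ (∑ a ∈ D, infl p l2 a) / D.card := fun D hD => by
    rw [le_div_iff₀ (by exact_mod_cast hD.card_pos), one_mul]
    calc (D.card : ℝ) = ∑ a ∈ D, (1:ℝ) := by simp
      _ ≤ _ := sum_le_sum fun a _ => infl_one_le hp.le l2 a
  let R : ℝ := (l.map (fun C => (∑ a ∈ C, infl p l2 a) / C.card)).prod
  let P2 : ℝ := ∏ b ∈ S, infl p l2 b
  have hterm : ∀ a ∈ C, Ex p univ (fun s => if a ∈ s then
      wit p (l.filter (fun D => decide (a ∉ D))) (s ∪ S) * wit p l2 (s ∪ S) else 0)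
      ≤ p * (infl p l2 a * P2 * R) := by
    intro a ha
    rw [ex_indicator_mul (mem_univ a)]
    refine mul_le_mul_of_nonneg_left ?_ hp.le
    have haS : a ∉ S := fun h => Finset.disjoint_left.1 (hS C List.mem_cons_self) h ha
    have hdisj : ∀ D ∈ l.filter (fun D => decide (a ∉ D)), Disjoint (insert a S) D := by
      intro D hD
      exact Finset.disjoint_insert_left.2
        ⟨filter_avoid l a D hD, hS D (List.mem_cons_of_mem _ (List.mem_of_mem_filter hD))⟩
    have h := ih _ (filter_sub l a)
      (fun D hD => hne D (List.mem_cons_of_mem _ (List.mem_of_mem_filter hD)))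
      (insert a S) hdisj
    rw [prod_insert haS] at h
    refine le_of_eq_of_le (ex_congr fun s => by rw [union_insert, insert_union]) (h.trans ?_)
    refine mul_le_mul_of_nonneg_left ?_ (mul_nonneg
      (le_trans zero_le_one (infl_one_le hp.le l2 a))
      (prod_nonneg fun b _ => le_trans zero_le_one (infl_one_le hp.le l2 b)))
    refine prod_sublist_le ((filter_sub l a).map _) fun x hx => ?_
    obtain ⟨D, hD, rfl⟩ := List.mem_map.1 hx
    exact hone D (hne D (List.mem_cons_of_mem _ hD))
  refine (mul_le_mul_of_nonneg_left (sum_le_sum hterm) (by positivity)).trans_eq ?_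
  rw [List.map_cons, List.prod_cons, ← mul_sum, ← sum_mul, ← sum_mul]
  simp only [P2, R]
  field_simp

theorem mul_log_avg {ι : Type*} (A : Finset ι) (hA : A.Nonempty) (x : ι → ℝ)
    (hx : ∀ i ∈ A, 0 ≤ x i) {m : ℝ} (hm : 0 < m) :
    ((∑ i ∈ A, x i) / m) * Real.log ((∑ i ∈ A, x i) / m) ≤
      (∑ i ∈ A, (x i * Real.log (x i) + x i * Real.log ((A.card : ℝ) / m))) / m := by
  have hk : (0:ℝ) < A.card := by exact_mod_cast hA.card_pos
  set S := ∑ i ∈ A, x i with hS
  have hj : (S / A.card) * Real.log (S / A.card) ≤ (∑ i ∈ A, x i * Real.log (x i)) / A.card := by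
    have h := Real.convexOn_mul_log.map_sum_le (t := A) (w := fun _ => (A.card : ℝ)⁻¹)
      (p := x) (fun _ _ => by positivity) (by simp [hk.ne']) (fun i hi => hx i hi)
    simp only [smul_eq_mul, ← mul_sum] at h
    rw [div_eq_inv_mul, div_eq_inv_mul]
    exact h
  rw [sum_add_distrib, ← sum_mul, ← hS]
  rcases (sum_nonneg hx).eq_or_lt with h0 | hpos
  · rw [← hS] at h0
    rw [← h0] at hj ⊢
    simp only [zero_div, zero_mul, add_zero] at hj ⊢
    have := (le_div_iff₀ hk).1 hj
    exact div_nonneg (by linarith) hm.le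
  · have e : Real.log (S / m) = Real.log (S / A.card) + Real.log ((A.card : ℝ) / m) := by
      rw [← Real.log_mul (div_pos hpos hk).ne' (div_pos hk hm).ne']
      congr 1; field_simp; exact hS
    rw [e]
    have h2 := (le_div_iff₀ hk).1 hj
    rw [le_div_iff₀ hm]
    have e2 : S / m * (Real.log (S / A.card) + Real.log ((A.card : ℝ) / m)) * m
        = S / A.card * Real.log (S / A.card) * A.card + S * Real.log ((A.card : ℝ) / m) := by
      field_simp
    rw [e2]; linarith

/-- Entropy bound for the witness, for lists sorted by increasing cardinality. -/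
theorem ex_wit_log (hp : 0 < p) (hp1 : p ≤ 1) (g : ℝ) (hg : 0 ≤ g) : ∀ l : List (Finset α),
    (∀ C ∈ l, C.Nonempty) → (∀ C ∈ l, p * (C.card : ℝ) ≤ g) →
    l.Pairwise (fun C D => C.card ≤ D.card) →
      Ex p univ (fun s => wit p l s * Real.log (wit p l s)) ≤
        (l.map (fun C => max 0 (Real.log (1 / (p * (C.card : ℝ)))))).sum
          + (1 + g) * l.length := by
  refine wit_induction (fun _ _ _ => ?_) fun C l ih hne hcard hsort => ?_
  · rw [ex_congr (g := fun _ => (0:ℝ)) (fun s => by simp [wit]), ex_const]; simp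
  have hne' : ∀ D ∈ l, D.Nonempty := fun D hD => hne D (List.mem_cons_of_mem _ hD)
  have hcard' : ∀ D ∈ l, p * (D.card : ℝ) ≤ g := fun D hD => hcard D (List.mem_cons_of_mem _ hD)
  obtain ⟨hfirst, hsort'⟩ := List.pairwise_cons.1 hsort
  have hC : (0:ℝ) < C.card := by exact_mod_cast (hne C List.mem_cons_self).card_pos
  set ℓ : ℝ := max 0 (Real.log (1 / (p * (C.card : ℝ)))) with hℓ
  set Lr : ℝ := (l.map (fun C => max 0 (Real.log (1 / (p * (C.card : ℝ)))))).sum with hLr
  let la : α → List (Finset α) := fun a => l.filter (fun D => decide (a ∉ D))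
  have hla : ∀ a, ∀ D ∈ la a, D ∈ l := fun a D hD => List.mem_of_mem_filter hD
  have hpt : ∀ s, wit p (C :: l) s * Real.log (wit p (C :: l) s) ≤ (p * C.card)⁻¹ * ∑ a ∈ C,
      if a ∈ s then wit p (la a) s * Real.log (wit p (la a) s)
        + wit p (la a) s * (ℓ + ((C.erase a ∩ s).card : ℝ)) else 0 := by
    intro s
    rw [wit, ← sum_filter, ← sum_filter, ← div_eq_inv_mul]
    rcases (C.filter (fun a => a ∈ s)).eq_empty_or_nonempty with hA | hA
    · rw [hA]; simp
    · refine (mul_log_avg _ hA (fun a => wit p (la a) s) (fun a _ => wit_nonneg hp.le _ s)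
        (mul_pos hp hC)).trans
        (div_le_div_of_nonneg_right (sum_le_sum fun a ha => ?_) (by positivity))
      refine add_le_add le_rfl (mul_le_mul_of_nonneg_left ?_ (wit_nonneg hp.le _ s))
      have hk : (0:ℝ) < (C.filter (fun a => a ∈ s)).card := by exact_mod_cast hA.card_pos
      rw [div_eq_mul_one_div _ (p * (C.card : ℝ)), Real.log_mul hk.ne' (by positivity)]
      have h1 := Real.log_le_sub_one_of_pos hk
      have h2 : (C.filter (fun a => a ∈ s)).card = (C.erase a ∩ s).card + 1 := by
        rw [filter_mem_eq_inter] at ha ⊢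
        rw [erase_inter, card_erase_add_one ha]
      rw [h2] at h1 ⊢
      push_cast at h1 ⊢
      linarith [le_max_right 0 (Real.log (1 / (p * (C.card : ℝ))))]
  refine (ex_mono hp.le hp1 hpt).trans ?_
  rw [ex_const_mul, ex_sum]
  let H : α → ℝ := fun a => ∑ b ∈ C.erase a, (p * infl p (la a) b)
  have hterm : ∀ a ∈ C, Ex p univ (fun s => if a ∈ s then wit p (la a) s * Real.log (wit p (la a) s)
        + wit p (la a) s * (ℓ + ((C.erase a ∩ s).card : ℝ)) else 0)
      ≤ p * (Lr + (1 + g) * (la a).length + ℓ + H a) := by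
    intro a _
    rw [ex_indicator_mul (mem_univ a)]
    refine mul_le_mul_of_nonneg_left ?_ hp.le
    rw [ex_congr (g := fun s => wit p (la a) s * Real.log (wit p (la a) s) + ℓ * wit p (la a) s
        + ∑ b ∈ C.erase a, if b ∈ s then wit p (la a) s else 0) (fun s => by
      rw [wit_insert (filter_avoid l a), inter_insert_of_notMem (notMem_erase a C), ← sum_filter,
        sum_const, filter_mem_eq_inter, nsmul_eq_mul]
      ring), ex_add, ex_add, ex_const_mul, ex_sum,
      ex_wit hp (la a) fun D hD => hne' D (hla a D hD), mul_one]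
    have hb : ∀ b ∈ C.erase a, Ex p univ (fun s => if b ∈ s then wit p (la a) s else 0)
        ≤ p * infl p (la a) b := fun b _ =>
      ex_wit_mem hp hp1 (la a) (fun D hD => hne' D (hla a D hD)) b
    have hr := ih (la a) (filter_sub l a) (fun D hD => hne' D (hla a D hD))
      (fun D hD => hcard' D (hla a D hD)) (hsort'.sublist (filter_sub l a))
    have hsub : ((la a).map (fun C => max 0 (Real.log (1 / (p * (C.card : ℝ)))))).sum ≤ Lr := by
      refine ((filter_sub l a).map _).sum_le_sum fun x hx => ?_
      obtain ⟨D, -, rfl⟩ := List.mem_map.1 hx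
      exact le_max_left _ _
    linarith [sum_le_sum hb]
  refine (mul_le_mul_of_nonneg_left (sum_le_sum hterm) (by positivity)).trans ?_
  have hH : ∀ a ∈ C, H a ≤ g + (l.map (fun D => ((C ∩ D).card : ℝ) / C.card)).sum := by
    intro a _
    have e : H a = p * (C.erase a).card
        + p * ∑ b ∈ C.erase a, (infl p (la a) b - 1) := by
      simp only [H]
      rw [sum_sub_distrib, sum_const, nsmul_one, ← mul_sum]
      ring
    rw [e, sum_infl_sub_one, ← List.sum_map_mul_left]
    have h1 : p * ((C.erase a).card : ℝ) ≤ g := by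
      refine le_trans (mul_le_mul_of_nonneg_left ?_ hp.le) (hcard C List.mem_cons_self)
      exact_mod_cast card_le_card (erase_subset a C)
    refine add_le_add h1 ((List.sum_le_sum fun D hD => ?_).trans
      (((filter_sub l a).map _).sum_le_sum fun x hx => ?_))
    · have hD' := hla a D hD
      have hDc : (C.card : ℝ) ≤ D.card := by exact_mod_cast hfirst D hD'
      have hcc : ((C.erase a ∩ D).card : ℝ) ≤ (C ∩ D).card := by
        exact_mod_cast card_le_card (inter_subset_inter (erase_subset a C) subset_rfl)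
      rw [← mul_div_assoc, mul_div_mul_left _ _ hp.ne']
      exact (div_le_div_of_nonneg_right hcc (by positivity)).trans
        (div_le_div_of_nonneg_left (by positivity) hC hDc)
    · obtain ⟨D, -, rfl⟩ := List.mem_map.1 hx
      positivity
  have hlen : ∑ a ∈ C, ((la a).length : ℝ)
      = C.card * l.length - (l.map (fun D => ((C ∩ D).card : ℝ))).sum := by
    have : ∀ l : List (Finset α), ∑ a ∈ C, ((l.filter (fun D => decide (a ∉ D))).length : ℝ)
        = C.card * l.length - (l.map (fun D => ((C ∩ D).card : ℝ))).sum := by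
      intro l
      induction l with
      | nil => simp
      | cons D l ihl =>
        have e : ∀ a, (((D :: l).filter (fun D => decide (a ∉ D))).length : ℝ)
            = ((l.filter (fun D => decide (a ∉ D))).length : ℝ) + if a ∉ D then 1 else 0 := by
          intro a
          by_cases h : a ∈ D <;> simp [List.filter_cons, h]
        rw [sum_congr rfl (fun a _ => e a), sum_add_distrib, ihl, ← sum_filter, sum_const,
          nsmul_one, List.length_cons, List.map_cons, List.sum_cons]
        have h2 := card_filter_add_card_filter_not (s := C) (fun a => a ∈ D)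
        rw [filter_mem_eq_inter] at h2
        have h2' : ((C ∩ D).card : ℝ) + ((C.filter (fun a => a ∉ D)).card : ℝ) = C.card := by
          exact_mod_cast h2
        push_cast
        linarith
    exact this l
  set T : ℝ := (l.map (fun D => ((C ∩ D).card : ℝ))).sum with hT
  have hTdiv : (l.map (fun D => ((C ∩ D).card : ℝ) / C.card)).sum = T / C.card := by
    simp only [div_eq_mul_inv, hT, List.sum_map_mul_right]
  have hT0 : 0 ≤ T := List.sum_nonneg fun x hx => by
    obtain ⟨D, -, rfl⟩ := List.mem_map.1 hx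
    positivity
  rw [← mul_sum, sum_add_distrib, sum_add_distrib, sum_add_distrib, ← mul_sum (a := 1 + g), hlen,
    sum_const, sum_const, nsmul_eq_mul, nsmul_eq_mul, List.map_cons, List.sum_cons,
    List.length_cons, ← hℓ, ← hLr]
  have hs := sum_le_sum hH
  rw [sum_const, nsmul_eq_mul, hTdiv] at hs
  rw [mul_inv, mul_assoc, inv_mul_le_iff₀ hp, inv_mul_le_iff₀ hC]
  push_cast
  refine mul_le_mul_of_nonneg_left ?_ hp.le |>.trans (le_of_eq (by
    rw [show p * (C.card * (ℓ + Lr + (1 + g) * ((l.length : ℝ) + 1)))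
      = C.card * (p * (ℓ + Lr + (1 + g) * ((l.length : ℝ) + 1))) by ring]))
  have : (C.card : ℝ) * (g + T / C.card) = C.card * g + T := by field_simp
  nlinarith [mul_nonneg hg hT0]

/-- A witness with bounded entropy keeps half of its mean after truncation at `L`. -/
theorem ex_min_wit (hp : 0 < p) (hp1 : p ≤ 1) (l : List (Finset α)) (hne : ∀ C ∈ l, C.Nonempty)
    {B Λ : ℝ} (hΛ : 0 < Λ) (hB : Ex p univ (fun s => wit p l s * Real.log (wit p l s)) ≤ B)
    (hBΛ : 2 * (B + 1) ≤ Λ) :
    1 / 2 ≤ Ex p univ (fun s => min (wit p l s) (Real.exp Λ)) := by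
  have hpt : ∀ s, wit p l s - Λ⁻¹ * (wit p l s * Real.log (wit p l s) + 1)
      ≤ min (wit p l s) (Real.exp Λ) := by
    intro s
    set x := wit p l s with hx
    have h0 : 0 ≤ x := wit_nonneg hp.le l s
    have hlow : 0 ≤ x * Real.log x + 1 := by
      rcases h0.eq_or_lt with h | h
      · simp [← h]
      · have h3 := Real.one_sub_inv_le_log_of_pos h
        have h4 : x * (1 - x⁻¹) ≤ x * Real.log x := mul_le_mul_of_nonneg_left h3 h0
        rw [mul_sub, mul_one, mul_inv_cancel₀ h.ne'] at h4
        linarith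
    refine le_min ?_ ?_
    · linarith [mul_nonneg (inv_nonneg.2 hΛ.le) hlow]
    · by_cases hxL : x ≤ Real.exp Λ
      · linarith [mul_nonneg (inv_nonneg.2 hΛ.le) hlow]
      · push Not at hxL
        have hxpos : 0 < x := (Real.exp_pos Λ).trans hxL
        have hl : Λ ≤ Real.log x := (Real.le_log_iff_exp_le hxpos).2 hxL.le
        have : x ≤ Λ⁻¹ * (x * Real.log x + 1) := by
          rw [le_inv_mul_iff₀ hΛ]; nlinarith [mul_le_mul_of_nonneg_left hl h0]
        linarith [Real.exp_pos Λ]
  refine le_trans ?_ (ex_mono hp.le hp1 hpt)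
  rw [ex_sub, ex_const_mul, ex_add, ex_const, ex_wit hp l hne]
  have : Λ⁻¹ * (Ex p univ (fun s => wit p l s * Real.log (wit p l s)) + 1) ≤ 1 / 2 := by
    rw [inv_mul_le_iff₀ hΛ]; linarith
  linarith

end Vale.Agent.P230
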