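import Mathlib
import Vale.Agent.P230.Witness
import Vale.Agent.P230.Atoms
import Vale.Agent.P230.Window

/-!
A cap cut ball that no thin configuration of translates covers.
-/

namespace Vale.Agent.P230

open Finset Filter MeasureTheory Metric Pointwise

variable {n M : ℕ}

/-- The constant of the lower bound. -/
noncomputable def eps0 : ℝ := 1 / 10 ^ 8

/-- The density threshold. -/
noncomputable def thr (n : ℕ) : ℝ := eps0 * n * Real.log n

/-- Load threshold. -/
noncomputable def dst (n : ℕ) : ℝ := 1000 * thr n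

/-- Truncation exponent. -/
noncomputable def trc (n : ℕ) : ℝ := 2 * (3004 * dst n + 1)

/-- Bound for the number of centres in a window. -/
noncomputable def ncap (n : ℕ) : ℝ := 24 * thr n * 3 ^ n

/-- Bound for the weighted correlation sum. -/
noncomputable def corr (n : ℕ) : ℝ :=
  2 * dst n * ncap n *
    (Real.exp (trc n) * (del n + eta n) ^ n + 3 * gmax n * (1 / 21 + eta n) ^ n)

/-- Numeric conditions used in the main argument. -/
structure MainNum (n : ℕ) : Prop where
  atoms : AtomsNum n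
  thr_one : 1 ≤ thr n
  thr_sq : thr n ≤ (n : ℝ) ^ 2
  far : dst n ^ 2 * (n : ℝ) ^ 2 ≤ lam n * gmin n * gmin n
  union : Real.exp ((n : ℝ) ^ 5 * 3 ^ n) * Real.exp (-(1 / (16 * corr n))) ≤ 1 / 3
  big : 384 ≤ n

theorem eventually_mainNum : ∀ᶠ n in atTop, MainNum n := by
  have hgeo : Tendsto (fun m : ℕ => (m : ℝ) ^ (24012 : ℕ) * (9 / 20 : ℝ) ^ m) atTop (nhds 0) :=
    tendsto_pow_const_mul_const_pow_of_lt_one _ (by norm_num) (by norm_num)
  have hlog : Tendsto (fun m : ℕ => Real.log m) atTop atTop :=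
    Real.tendsto_log_atTop.comp tendsto_natCast_atTop_atTop
  filter_upwards [eventually_atomsNum, eventually_ge_atTop (10 ^ 8),
    hlog.eventually_ge_atTop 1000, hgeo.eventually_le_const one_pos] with n A hbig hl hg
  have L := A.large
  have hn := L.npos'
  have hn8 : ((10:ℝ) ^ 8) ≤ n := by exact_mod_cast hbig
  have hlogle : Real.log n ≤ n := Real.log_le_self hn.le
  have t1 : 1 ≤ thr n := by
    unfold thr eps0
    rw [div_mul_eq_mul_div, div_mul_eq_mul_div, one_mul, le_div_iff₀ (by positivity), one_mul]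
    nlinarith [mul_le_mul_of_nonneg_left (show (1:ℝ) ≤ Real.log n by linarith) hn.le]
  have t2 : thr n ≤ (n : ℝ) ^ 2 := by
    unfold thr
    have : eps0 ≤ 1 := by norm_num [eps0]
    have h0 : 0 ≤ eps0 := by norm_num [eps0]
    have := mul_nonneg hn.le (show 0 ≤ Real.log n by linarith)
    nlinarith [mul_le_mul_of_nonneg_left hlogle hn.le]
  have t0 : 0 ≤ thr n := zero_le_one.trans t1
  refine ⟨A, t1, t2, ?_, ?_, le_trans (by norm_num) hbig⟩
  · have hk : 4000000 ≤ (n : ℝ) := by linarith [show (4000000:ℝ) ≤ 10 ^ 8 by norm_num]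
    have hd : dst n ^ 2 * (n : ℝ) ^ 2 * (4 * gz n) ≤ gmin n * gmin n := by
      unfold dst gz gmin
      have hth : thr n ^ 2 ≤ (n : ℝ) ^ (4 : ℕ) := by
        refine (pow_le_pow_left₀ t0 t2 2).trans (le_of_eq ?_)
        rw [← pow_mul]
      have e : (n : ℝ) ^ (14000 : ℕ) * (n : ℝ) ^ (14000 : ℕ)
          = (n : ℝ) ^ (4 : ℕ) * (n : ℝ) ^ (2 : ℕ) * (n : ℝ) ^ (24000 : ℕ) * (n : ℝ) ^ (3994 : ℕ) := by
        simp only [← pow_add]
      rw [e]
      have h1 : (4000000:ℝ) ≤ (n : ℝ) ^ (3994 : ℕ) :=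
        hk.trans (le_self_pow₀ (by linarith) (by norm_num))
      have h2 : (0:ℝ) ≤ (n : ℝ) ^ (24000 : ℕ) := pow_nonneg hn.le _
      generalize (n : ℝ) ^ (24000 : ℕ) = G at h2 ⊢
      generalize (n : ℝ) ^ (3994 : ℕ) = H at h1 ⊢
      have h3 := mul_le_mul hth h1 (by norm_num) (by positivity)
      nlinarith [mul_le_mul_of_nonneg_left h3 (mul_nonneg (sq_nonneg (n:ℝ)) h2)]
    rw [lam, div_mul_eq_mul_div, div_mul_eq_mul_div, one_mul,
      le_div_iff₀ (mul_pos four_pos (lt_of_lt_of_le one_pos L.gz_one_le))]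
    exact hd
  · have hcorr0 : 0 < corr n := by
      unfold corr dst ncap gmax
      have := L.del_pos
      have := L.eta_pos
      have := L.gz_one_le
      positivity
    have hη : eta n ≤ del n := by
      have h1 : eta n ≤ 1 / n := by
        unfold eta
        exact one_div_le_one_div_of_le hn (le_self_pow₀ (by linarith) (by norm_num))
      refine h1.trans ?_
      unfold del
      refine one_div_le_one_div_of_le (by positivity) ?_
      rw [Real.sqrt_le_iff]
      refine ⟨hn.le, ?_⟩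
      rw [Real.sqrt_le_iff]
      exact ⟨by positivity, by nlinarith [pow_le_pow_right₀ (show (1:ℝ) ≤ n by linarith) (show 1 ≤ 4 by norm_num)]⟩
    have htr : trc n ≤ (n : ℝ) * (Real.log n / 8) := by
      have e : trc n = 6008000 * eps0 * ((n : ℝ) * Real.log n) + 2 := by
        unfold trc dst thr; ring
      rw [e, eps0]
      have := mul_le_mul_of_nonneg_left hl hn.le
      norm_num
      linarith
    have hnear : Real.exp (trc n) * (del n + eta n) ^ n ≤ (1 / 20 : ℝ) ^ n := by
      have hδ : del n = Real.exp (-(Real.log n / 4)) := by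
        rw [Real.exp_neg, show Real.log n / 4 = Real.log (Real.sqrt (Real.sqrt n)) by
          rw [Real.log_sqrt (Real.sqrt_nonneg _), Real.log_sqrt hn.le]; ring,
          Real.exp_log (by positivity), del, one_div]
      refine (mul_le_mul (Real.exp_le_exp.2 htr)
        (pow_le_pow_left₀ (by have := L.eta_pos; have := L.del_pos; positivity)
          (show del n + eta n ≤ 2 * del n by linarith) n) (by
          have := L.eta_pos; have := L.del_pos; positivity) (Real.exp_pos _).le).trans ?_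
      rw [Real.exp_nat_mul, ← mul_pow]
      refine pow_le_pow_left₀ (by have := L.del_pos; positivity) ?_ n
      rw [hδ, mul_comm (2:ℝ), ← mul_assoc, ← Real.exp_add]
      have h2 : Real.exp (Real.log n / 8 + -(Real.log n / 4)) ≤ Real.exp (-100) :=
        Real.exp_le_exp.2 (by linarith)
      have h3 : Real.exp (-100) ≤ 1 / 40 := by
        rw [Real.exp_neg, inv_le_comm₀ (Real.exp_pos _) (by norm_num)]
        linarith [Real.add_one_le_exp (100:ℝ)]
      linarith
    have hfar : (1 / 21 + eta n) ^ n ≤ (1 / 20 : ℝ) ^ n :=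
      pow_le_pow_left₀ (by have := L.eta_pos; positivity) (by linarith [L.eta_small]) n
    have hc : corr n ≤ (n : ℝ) ^ (24006 : ℕ) * (3 / 20 : ℝ) ^ n := by
      have hsum : Real.exp (trc n) * (del n + eta n) ^ n + 3 * gmax n * (1 / 21 + eta n) ^ n
          ≤ 31 * gz n * (1 / 20 : ℝ) ^ n := by
        have hg1 := L.gz_one_le
        have := mul_le_mul_of_nonneg_left hfar (show 0 ≤ 3 * gmax n by unfold gmax; positivity)
        have h1 := mul_le_mul_of_nonneg_right hg1 (show 0 ≤ (1 / 20 : ℝ) ^ n by positivity)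
        unfold gmax at this ⊢
        linarith
      unfold corr
      refine (mul_le_mul_of_nonneg_left hsum (by unfold dst ncap; positivity)).trans ?_
      unfold dst ncap gz
      have e : (n : ℝ) ^ (24006 : ℕ) = (n : ℝ) ^ (24000 : ℕ) * (n : ℝ) ^ (6 : ℕ) := by rw [← pow_add]
      rw [e, show (3 / 20 : ℝ) ^ n = 3 ^ n * (1 / 20) ^ n by rw [← mul_pow]; norm_num]
      have h2 : (0:ℝ) ≤ (n : ℝ) ^ (24000 : ℕ) := pow_nonneg hn.le _
      generalize (n : ℝ) ^ (24000 : ℕ) = G at h2 ⊢
      have h3 : 2 * (1000 * thr n) * (24 * thr n) * 31 ≤ (n : ℝ) ^ 6 := by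
        have h4 := pow_le_pow_left₀ t0 t2 2
        have h5 : (1488000:ℝ) ≤ (n : ℝ) ^ 2 := by nlinarith
        nlinarith [mul_le_mul h5 h4 (sq_nonneg (thr n)) (sq_nonneg _)]
      have := mul_le_mul_of_nonneg_right h3
        (show 0 ≤ G * (3:ℝ) ^ n * (1 / 20) ^ n by positivity)
      linarith
    rw [← Real.exp_add]
    have h6 : ((n : ℝ) ^ 5 * 3 ^ n + 2) * (16 * corr n) ≤ 1 := by
      refine le_trans ?_ hg
      rw [show (24012:ℕ) = 6 + 24006 by norm_num, pow_add (n:ℝ),
        show (9 / 20 : ℝ) ^ n = 3 ^ n * (3 / 20) ^ n by rw [← mul_pow]; norm_num]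
      refine (mul_le_mul_of_nonneg_left (mul_le_mul_of_nonneg_left hc (by norm_num))
        (by positivity)).trans ?_
      have h2 : (0:ℝ) ≤ (n : ℝ) ^ (24006 : ℕ) := pow_nonneg hn.le _
      generalize (n : ℝ) ^ (24006 : ℕ) = G at h2 ⊢
      have h3 : ((n : ℝ) ^ 5 * 3 ^ n + 2) * 16 ≤ (n : ℝ) ^ 6 * 3 ^ n := by
        have h4 : (1:ℝ) ≤ 3 ^ n := one_le_pow₀ (by norm_num)
        have h5 : (1:ℝ) ≤ (n:ℝ) ^ 5 := one_le_pow₀ (by linarith)
        have h7 : (48:ℝ) * (n:ℝ) ^ 5 ≤ (n:ℝ) ^ 6 := by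
          rw [pow_succ (n:ℝ) 5, mul_comm]
          exact mul_le_mul_of_nonneg_left (by linarith) (by positivity)
        nlinarith [mul_le_mul_of_nonneg_right h7 (show (0:ℝ) ≤ 3 ^ n by positivity),
          mul_le_mul h5 h4 zero_le_one (by positivity)]
      have := mul_le_mul_of_nonneg_right h3 (show 0 ≤ G * (3 / 20 : ℝ) ^ n by positivity)
      linarith
    have h7 : (n : ℝ) ^ 5 * 3 ^ n + 2 ≤ 1 / (16 * corr n) := by
      rw [le_div_iff₀ (by positivity)]; exact h6
    refine (Real.exp_le_exp.2 (show _ ≤ (-2:ℝ) by linarith)).trans ?_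
    rw [Real.exp_neg, inv_le_comm₀ (Real.exp_pos _) (by norm_num)]
    have := Real.add_one_le_exp (2:ℝ)
    norm_num
    linarith

/-- Atom sets of the alive centres, by increasing size. -/
noncomputable def caps (a : Fin M → E n) (Xh : Finset (E n)) (y : E n) : List (Finset (Fin M)) :=
  ((alive n Xh y).toList.map (fun x => cutSet a (y - x))).mergeSort
    (fun C D => decide (C.card ≤ D.card))

/-- The truncated witness of a test point. -/
noncomputable def wt (a : Fin M → E n) (Xh : Finset (E n)) (y : E n) (s : Finset (Fin M)) : ℝ :=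
  min (wit (lam n) (caps a Xh y) s) (Real.exp (trc n))

theorem mem_caps {a : Fin M → E n} {Xh : Finset (E n)} {y : E n} {C : Finset (Fin M)} :
    C ∈ caps a Xh y ↔ ∃ x ∈ alive n Xh y, cutSet a (y - x) = C := by
  simp [caps, List.mem_mergeSort, List.mem_map]

theorem caps_sorted (a : Fin M → E n) (Xh : Finset (E n)) (y : E n) :
    (caps a Xh y).Pairwise (fun C D => C.card ≤ D.card) := by
  have h := List.pairwise_mergeSort (le := fun C D : Finset (Fin M) => decide (C.card ≤ D.card))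
    (fun A B C h1 h2 => by simp only [decide_eq_true_eq] at *; omega)
    (fun A B => by simp only [Bool.or_eq_true, decide_eq_true_eq]; omega)
    ((alive n Xh y).toList.map (fun x => cutSet a (y - x)))
  simpa [caps] using h

theorem caps_map_sum (a : Fin M → E n) (Xh : Finset (E n)) (y : E n) (f : Finset (Fin M) → ℝ) :
    ((caps a Xh y).map f).sum = ∑ x ∈ alive n Xh y, f (cutSet a (y - x)) := by
  rw [caps, ((List.mergeSort_perm _ _).map f).sum_eq, List.map_map, ← Finset.sum_map_toList]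
  rfl

theorem caps_length (a : Fin M → E n) (Xh : Finset (E n)) (y : E n) :
    (caps a Xh y).length = (alive n Xh y).card := by
  simp [caps]

/-- Facts about a good test point. -/
theorem good_facts {a : Fin M → E n} {Xh : Finset (E n)} {y : E n} (hXh : Xh ⊆ gridBox n)
    (L : Large n) (GA : GoodAtoms n M a) (hy : y ∈ goodY n (dst n) Xh) :
    (∀ x ∈ alive n Xh y, y - x ∈ gridBox n ∧ 1 - uD n ≤ ‖y - x‖ ∧ ‖y - x‖ ≤ 1 + eta n ∧
      gmin n ≤ ((cutSet a (y - x)).card : ℝ) ∧ ((cutSet a (y - x)).card : ℝ) ≤ gmax n) ∧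
    (∀ C ∈ caps a Xh y, C.Nonempty) ∧
    ((alive n Xh y).card : ℝ) ≤ dst n ∧
    Ex (lam n) univ (fun s => wit (lam n) (caps a Xh y) s * Real.log (wit (lam n) (caps a Xh y) s))
      ≤ 3004 * dst n := by
  classical
  obtain ⟨hyg, hy1, hy2, hy3⟩ := mem_filter.1 hy
  have hgood : ∀ x ∈ alive n Xh y, y - x ∈ gridBox n ∧ 1 - uD n ≤ ‖y - x‖ ∧
      ‖y - x‖ ≤ 1 + eta n := by
    intro x hx
    obtain ⟨hx1, hx2⟩ := mem_filter.1 hx
    exact ⟨mem_gridBox L.npos ((isGrid_of_mem_gridBox hyg).sub (isGrid_of_mem_gridBox (hXh hx1)))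
      (by linarith [L.eta_small]), hy3 x hx1, hx2⟩
  have hsh : ∀ x ∈ alive n Xh y, _ := fun x hx =>
    GA.shell (y - x) (hgood x hx).1 (hgood x hx).2.1 (hgood x hx).2.2
  have hpos : ∀ x ∈ alive n Xh y, (cutSet a (y - x)).Nonempty := fun x hx => by
    rw [← Finset.card_pos]
    exact_mod_cast lt_of_lt_of_le L.gmin_pos (hsh x hx).1
  have hne : ∀ C ∈ caps a Xh y, C.Nonempty := by
    intro C hC
    obtain ⟨x, hx, rfl⟩ := mem_caps.1 hC
    exact hpos x hx
  have hterm : ∀ x ∈ alive n Xh y, (1:ℝ) ≤ 1 + n * (1 + eta n - ‖y - x‖) := fun x hx => by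
    have := mul_nonneg L.npos'.le (sub_nonneg.2 (hgood x hx).2.2)
    linarith
  have hcard : ((alive n Xh y).card : ℝ) ≤ dst n := by
    refine le_trans ?_ hy2
    rw [load, Finset.cast_card]
    exact sum_le_sum hterm
  refine ⟨fun x hx => ⟨(hgood x hx).1, (hgood x hx).2.1, (hgood x hx).2.2, (hsh x hx).1,
    (hsh x hx).2.1⟩, hne, hcard, ?_⟩
  have h := ex_wit_log L.lam_pos L.lam_le_one (5 / 2) (by norm_num) (caps a Xh y) hne
    (fun C hC => by
      obtain ⟨x, hx, rfl⟩ := mem_caps.1 hC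
      rw [← L.lam_gmax]
      exact mul_le_mul_of_nonneg_left (hsh x hx).2.1 L.lam_pos.le)
    (caps_sorted a Xh y)
  refine h.trans ?_
  rw [caps_map_sum, caps_length]
  have h1 : ∑ x ∈ alive n Xh y, max 0 (Real.log (1 / (lam n * ((cutSet a (y - x)).card : ℝ))))
      ≤ 3000 * load n Xh y := by
    rw [load, mul_sum]
    exact sum_le_sum fun x hx => (hsh x hx).2.2
  have := Nat.cast_nonneg (α := ℝ) (alive n Xh y).card
  linarith

theorem wit_pair_far {a : Fin M → E n} {Xh : Finset (E n)} {y y' : E n} (hXh : Xh ⊆ gridBox n)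
    (N : MainNum n) (GA : GoodAtoms n M a) (hy : y ∈ goodY n (dst n) Xh)
    (hy' : y' ∈ goodY n (dst n) Xh)
    (hfar : ∀ x ∈ alive n Xh y, ∀ x' ∈ alive n Xh y', del n ≤ ‖(y - x) - (y' - x')‖) :
    Ex (lam n) univ (fun s => wit (lam n) (caps a Xh y) s * wit (lam n) (caps a Xh y') s) ≤ 3 := by
  classical
  have L := N.atoms.large
  have hlp := L.lam_pos
  obtain ⟨f1, n1, c1, -⟩ := good_facts hXh L GA hy
  obtain ⟨f2, n2, c2, -⟩ := good_facts hXh L GA hy'
  have h := ex_wit_cross hlp L.lam_le_one (caps a Xh y') n2 (caps a Xh y) n1 ∅ (by simp)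
  simp only [union_empty, prod_empty, one_mul] at h
  refine h.trans ?_
  set τ := dst n * (n : ℝ) ^ 2 / (lam n * gmin n * gmin n) with hτ
  have hden : 0 < lam n * gmin n * gmin n := mul_pos (mul_pos hlp L.gmin_pos) L.gmin_pos
  have hτ0 : 0 ≤ τ := div_nonneg (mul_nonneg ((Nat.cast_nonneg _).trans c1) (sq_nonneg _)) hden.le
  have hb : ∀ C ∈ caps a Xh y,
      (∑ b ∈ C, infl (lam n) (caps a Xh y') b) / C.card ≤ Real.exp τ := by
    intro C hC
    obtain ⟨x, hx, rfl⟩ := mem_caps.1 hC
    rw [avg_infl _ (n1 _ hC), caps_map_sum]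
    refine le_trans ?_ (Real.add_one_le_exp τ)
    rw [add_comm τ 1]
    refine add_le_add le_rfl ?_
    have g1 := (f1 x hx).2.2.2.1
    have hCpos : (0:ℝ) < ((cutSet a (y - x)).card : ℝ) := lt_of_lt_of_le L.gmin_pos g1
    rw [div_le_iff₀ hCpos]
    have h1 : ∀ x' ∈ alive n Xh y', ((cutSet a (y - x) ∩ cutSet a (y' - x')).card : ℝ)
        / (lam n * (cutSet a (y' - x')).card) ≤ (n : ℝ) ^ 2 / (lam n * gmin n) := by
      intro x' hx'
      refine div_le_div₀ (sq_nonneg _) ?_ (mul_pos hlp L.gmin_pos)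
        (mul_le_mul_of_nonneg_left (f2 x' hx').2.2.2.1 hlp.le)
      exact GA.share _ (f1 x hx).1 _ (f2 x' hx').1 (f1 x hx).2.2.1 (f2 x' hx').2.2.1
        (hfar x hx x' hx')
    refine (sum_le_sum h1).trans ?_
    rw [sum_const, nsmul_eq_mul]
    have hq : 0 ≤ (n : ℝ) ^ 2 / (lam n * gmin n) :=
      div_nonneg (sq_nonneg _) (mul_pos hlp L.gmin_pos).le
    refine (mul_le_mul_of_nonneg_right c2 hq).trans ?_
    refine le_trans (le_of_eq ?_) (mul_le_mul_of_nonneg_left g1 hτ0)
    rw [hτ]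
    field_simp [L.gmin_pos.ne']
  have h2 : ∀ l : List (Finset (Fin M)), (∀ C ∈ l, (∑ b ∈ C, infl (lam n) (caps a Xh y') b) / C.card
      ≤ Real.exp τ) → (l.map (fun C => (∑ b ∈ C, infl (lam n) (caps a Xh y') b) / C.card)).prod
      ≤ Real.exp τ ^ l.length := by
    intro l
    induction l with
    | nil => simp
    | cons C l ih =>
      intro hl
      rw [List.map_cons, List.prod_cons, List.length_cons, pow_succ']
      refine mul_le_mul (hl C List.mem_cons_self) (ih fun D hD => hl D (List.mem_cons_of_mem _ hD))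
        ?_ (Real.exp_pos τ).le
      refine List.prod_nonneg fun v hv => ?_
      obtain ⟨D, -, rfl⟩ := List.mem_map.1 hv
      exact div_nonneg (sum_nonneg fun b _ => zero_le_one.trans (infl_one_le hlp.le _ b))
        (Nat.cast_nonneg _)
  refine (h2 _ hb).trans ?_
  rw [← Real.exp_nat_mul, caps_length]
  refine (Real.exp_le_exp.2 (show _ ≤ (1:ℝ) from ?_)).trans (by linarith [Real.exp_one_lt_d9])
  refine (mul_le_mul_of_nonneg_right c1 hτ0).trans ?_
  rw [hτ, ← mul_div_assoc, div_le_one hden, ← mul_assoc, ← sq]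
  exact N.far

theorem near_count {Xh : Finset (E n)} {y : E n} (L : Large n) (Y : Finset (E n))
    (hY : ∀ g ∈ Y, IsGrid g) :
    open Classical in
    ((Y.filter (fun y' => ∃ x ∈ alive n Xh y, ∃ x' ∈ Xh,
      ‖(y - x) - (y' - x')‖ ≤ del n)).card : ℝ) * mesh n ^ n
      ≤ (alive n Xh y).card * Xh.card * ((del n + eta n) ^ n * ballVol n) := by
  classical
  have hm := (mesh_pos L.npos).le
  have hsub : Y.filter (fun y' => ∃ x ∈ alive n Xh y, ∃ x' ∈ Xh,
      ‖(y - x) - (y' - x')‖ ≤ del n) ⊆ ((alive n Xh y) ×ˢ Xh).biUnion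
        (fun q => Y.filter (fun y' => ‖y' - (y - q.1 + q.2)‖ ≤ del n)) := by
    intro y' hy'
    obtain ⟨hy1, x, hx, x', hx', hd⟩ := mem_filter.1 hy'
    refine mem_biUnion.2 ⟨(x, x'), mem_product.2 ⟨hx, hx'⟩, mem_filter.2 ⟨hy1, ?_⟩⟩
    rw [show y' - (y - x + x') = -((y - x) - (y' - x')) by abel, norm_neg]
    exact hd
  refine (mul_le_mul_of_nonneg_right (Nat.cast_le.2 ((card_le_card hsub).trans card_biUnion_le))
    (pow_nonneg hm n)).trans ?_
  rw [Nat.cast_sum, sum_mul]
  refine (sum_le_sum (g := fun _ => (del n + eta n) ^ n * ballVol n) fun q _ => ?_).trans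
    (le_of_eq (by rw [sum_const, card_product, nsmul_eq_mul]; push_cast; ring))
  refine (grid_count_le L.npos _ (fun g hg => hY g (mem_filter.1 hg).1) _ L.del_pos.le
    (fun g hg => (mem_filter.1 hg).2)).trans ?_
  refine mul_le_mul_of_nonneg_right (pow_le_pow_left₀ ?_ ?_ n) ballVol_pos.le
  · have := L.del_pos; positivity
  · linarith [L.mesh_small, mul_nonneg L.npos'.le hm]

theorem share_count {a : Fin M → E n} {Xh : Finset (E n)} {y : E n} (hXh : Xh ⊆ gridBox n)
    (L : Large n) (GA : GoodAtoms n M a) (hy : y ∈ goodY n (dst n) Xh) (Y : Finset (E n))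
    (hY : ∀ g ∈ Y, IsGrid g) :
    open Classical in
    ((Y.filter (fun y' => ∃ x ∈ alive n Xh y, ∃ j ∈ cutSet a (y - x), ∃ x' ∈ Xh,
      ‖y' - x'‖ ≤ 1 + eta n ∧ j ∈ cutSet a (y' - x'))).card : ℝ) * mesh n ^ n
      ≤ (alive n Xh y).card * gmax n * Xh.card * ((1 / 21 + eta n) ^ n * ballVol n) := by
  classical
  have hm := (mesh_pos L.npos).le
  obtain ⟨f1, -, -, -⟩ := good_facts hXh L GA hy
  have hone : ∀ j x', ((Y.filter (fun y' => ‖y' - x'‖ ≤ 1 + eta n ∧ j ∈ cutSet a (y' - x'))).card : ℝ)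
      * mesh n ^ n ≤ (1 / 21 + eta n) ^ n * ballVol n := by
    intro j x'
    refine (grid_count_le L.npos _ (fun g hg => hY g (mem_filter.1 hg).1)
      (x' + (cc / ‖a j‖ ^ 2) • a j) (show (0:ℝ) ≤ 1 / 21 by norm_num) fun g hg => ?_).trans ?_
    · obtain ⟨-, h1, h2⟩ := mem_filter.1 hg
      simp only [cutSet, mem_filter, mem_univ, true_and] at h2
      have h3 := dist_sq_le_of_inner (a j) (g - x') (show 0 < cc by norm_num [cc]) (GA.norm_le j) h1
        (le_trans (by linarith [L.eta_pos]) h2)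
      rw [← sub_sub]
      refine (pow_le_pow_iff_left₀ (norm_nonneg _) (by norm_num) two_ne_zero).1 (h3.trans ?_)
      unfold cc
      nlinarith [L.eta_small, L.eta_pos]
    · refine mul_le_mul_of_nonneg_right (pow_le_pow_left₀ ?_ ?_ n) ballVol_pos.le
      · positivity
      · linarith [L.mesh_small, mul_nonneg L.npos'.le hm]
  have hsub : Y.filter (fun y' => ∃ x ∈ alive n Xh y, ∃ j ∈ cutSet a (y - x), ∃ x' ∈ Xh,
      ‖y' - x'‖ ≤ 1 + eta n ∧ j ∈ cutSet a (y' - x')) ⊆ (alive n Xh y).biUnion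
        (fun x => ((cutSet a (y - x)) ×ˢ Xh).biUnion
          (fun q => Y.filter (fun y' => ‖y' - q.2‖ ≤ 1 + eta n ∧ q.1 ∈ cutSet a (y' - q.2)))) := by
    intro y' hy'
    obtain ⟨hy1, x, hx, j, hj, x', hx', hd⟩ := mem_filter.1 hy'
    exact mem_biUnion.2 ⟨x, hx, mem_biUnion.2 ⟨(j, x'), mem_product.2 ⟨hj, hx'⟩,
      mem_filter.2 ⟨hy1, hd⟩⟩⟩
  refine (mul_le_mul_of_nonneg_right (Nat.cast_le.2 ((card_le_card hsub).trans card_biUnion_le))
    (pow_nonneg hm n)).trans ?_
  rw [Nat.cast_sum, sum_mul]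
  refine (sum_le_sum (g := fun _ => gmax n * Xh.card * ((1 / 21 + eta n) ^ n * ballVol n))
    fun x hx => ?_).trans (le_of_eq (by rw [sum_const, nsmul_eq_mul]; ring))
  refine (mul_le_mul_of_nonneg_right (Nat.cast_le.2 card_biUnion_le) (pow_nonneg hm n)).trans ?_
  rw [Nat.cast_sum, sum_mul]
  refine (sum_le_sum fun q _ => hone q.1 q.2).trans ?_
  rw [sum_const, card_product, nsmul_eq_mul, Nat.cast_mul]
  refine mul_le_mul_of_nonneg_right (mul_le_mul_of_nonneg_right (f1 x hx).2.2.2.2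
    (Nat.cast_nonneg _)) ?_
  exact mul_nonneg (pow_nonneg (by have := L.eta_pos; positivity) n) ballVol_pos.le

/-- Scaled witness. -/
noncomputable def scaled (a : Fin M → E n) (Xh : Finset (E n)) (y : E n) (s : Finset (Fin M)) : ℝ :=
  1 / (4 * corr n) / ((goodY n (dst n) Xh).card : ℝ) * wt a Xh y s

theorem corr_pos (N : MainNum n) : 0 < corr n := by
  have L := N.atoms.large
  have := L.del_pos
  have := L.eta_pos
  have := L.gz_one_le
  have := lt_of_lt_of_le one_pos N.thr_one
  unfold corr dst ncap gmax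
  positivity

theorem wt_nonneg (L : Large n) (a : Fin M → E n) (Xh : Finset (E n)) (y : E n)
    (s : Finset (Fin M)) : 0 ≤ wt a Xh y s :=
  le_min (wit_nonneg L.lam_pos.le _ s) (Real.exp_pos _).le

theorem wt_mean (L : Large n) {a : Fin M → E n} {Xh : Finset (E n)} {y : E n}
    (hne : ∀ C ∈ caps a Xh y, C.Nonempty) : Ex (lam n) univ (wt a Xh y) ≤ 1 :=
  (ex_mono L.lam_pos.le L.lam_le_one (fun _ => min_le_left _ _)).trans
    (ex_wit L.lam_pos _ hne).le

theorem dep_sum (N : MainNum n) {a : Fin M → E n} {Xh : Finset (E n)} {y : E n}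
    (hXh : Xh ⊆ gridBox n) (GA : GoodAtoms n M a) (hcard : (Xh.card : ℝ) ≤ ncap n)
    (hvol : ballVol n / 2 ≤ ((goodY n (dst n) Xh).card : ℝ) * mesh n ^ n)
    (hy : y ∈ goodY n (dst n) Xh) :
    (∑ y' ∈ goodY n (dst n) Xh,
      if Disjoint ((alive n Xh y).biUnion (fun x => cutSet a (y - x)))
          ((alive n Xh y').biUnion (fun x => cutSet a (y' - x))) then 0
      else Ex (lam n) univ (fun s => wt a Xh y s * wt a Xh y' s))
      / ((goodY n (dst n) Xh).card : ℝ) ≤ corr n := by
  classical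
  have L := N.atoms.large
  have hV := ballVol_pos (n := n)
  have hmp := pow_pos (mesh_pos L.npos) n
  set Y := goodY n (dst n) Xh with hYd
  have hY : ∀ g ∈ Y, IsGrid g := fun g hg => isGrid_of_mem_gridBox (mem_filter.1 hg).1
  obtain ⟨-, n1, c1, -⟩ := good_facts hXh L GA hy
  let Nr := Y.filter (fun y' => ∃ x ∈ alive n Xh y, ∃ x' ∈ Xh, ‖(y - x) - (y' - x')‖ ≤ del n)
  let Sr := Y.filter (fun y' => ∃ x ∈ alive n Xh y, ∃ j ∈ cutSet a (y - x), ∃ x' ∈ Xh,
      ‖y' - x'‖ ≤ 1 + eta n ∧ j ∈ cutSet a (y' - x'))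
  have hbound : ∀ y' ∈ Y, (if Disjoint ((alive n Xh y).biUnion (fun x => cutSet a (y - x)))
          ((alive n Xh y').biUnion (fun x => cutSet a (y' - x))) then 0
      else Ex (lam n) univ (fun s => wt a Xh y s * wt a Xh y' s))
      ≤ (if y' ∈ Nr then Real.exp (trc n) else 0) + (if y' ∈ Sr then 3 else 0) := by
    intro y' hy'
    by_cases hd : Disjoint ((alive n Xh y).biUnion (fun x => cutSet a (y - x)))
          ((alive n Xh y').biUnion (fun x => cutSet a (y' - x)))
    · rw [if_pos hd]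
      have := (Real.exp_pos (trc n)).le
      split_ifs <;> positivity
    rw [if_neg hd]
    by_cases hnear : y' ∈ Nr
    · rw [if_pos hnear]
      have h1 : Ex (lam n) univ (fun s => wt a Xh y s * wt a Xh y' s)
          ≤ Real.exp (trc n) := by
        refine (ex_mono L.lam_pos.le L.lam_le_one (g := fun s => Real.exp (trc n) * wt a Xh y s)
          fun s => ?_).trans ?_
        · rw [mul_comm (Real.exp (trc n))]
          exact mul_le_mul_of_nonneg_left (min_le_right _ _) (wt_nonneg L a Xh y s)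
        · rw [ex_const_mul]
          exact mul_le_of_le_one_right (Real.exp_pos _).le (wt_mean L n1)
      split_ifs <;> linarith
    have hsr : y' ∈ Sr := by
      obtain ⟨j, hj1, hj2⟩ := Finset.not_disjoint_iff.1 hd
      obtain ⟨x, hx, hjx⟩ := mem_biUnion.1 hj1
      obtain ⟨x', hx', hjx'⟩ := mem_biUnion.1 hj2
      exact mem_filter.2 ⟨hy', x, hx, j, hjx, x', (mem_filter.1 hx').1, (mem_filter.1 hx').2, hjx'⟩
    rw [if_neg hnear, if_pos hsr, zero_add]
    have hfar : ∀ x ∈ alive n Xh y, ∀ x' ∈ alive n Xh y', del n ≤ ‖(y - x) - (y' - x')‖ := by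
      intro x hx x' hx'
      by_contra hlt
      exact hnear (mem_filter.2 ⟨hy', x, hx, x', (mem_filter.1 hx').1, (not_le.1 hlt).le⟩)
    refine (ex_mono L.lam_pos.le L.lam_le_one (fun s => ?_)).trans (wit_pair_far hXh N GA hy hy' hfar)
    exact mul_le_mul (min_le_left _ _) (min_le_left _ _) (wt_nonneg L a Xh y' s)
      (wit_nonneg L.lam_pos.le _ s)
  have hsum := sum_le_sum hbound
  have eN : ∑ y' ∈ Y, (if y' ∈ Nr then Real.exp (trc n) else 0) = (Nr.card : ℝ) * Real.exp (trc n) := by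
    rw [← sum_filter, sum_const, nsmul_eq_mul, filter_mem_eq_inter,
      inter_eq_right.2 (filter_subset _ _)]
  have eS : ∑ y' ∈ Y, (if y' ∈ Sr then (3:ℝ) else 0) = (Sr.card : ℝ) * 3 := by
    rw [← sum_filter, sum_const, nsmul_eq_mul, filter_mem_eq_inter,
      inter_eq_right.2 (filter_subset _ _)]
  rw [sum_add_distrib, eN, eS] at hsum
  have hN := near_count (Xh := Xh) (y := y) L Y hY
  have hS := share_count hXh L GA hy Y hY
  change ((Nr.card : ℝ)) * mesh n ^ n ≤ _ at hN
  change ((Sr.card : ℝ)) * mesh n ^ n ≤ _ at hS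
  have hYpos : 0 < (Y.card : ℝ) := by
    by_contra h
    push Not at h
    nlinarith
  rw [div_le_iff₀ hYpos]
  refine le_of_mul_le_mul_right ?_ hmp
  refine (mul_le_mul_of_nonneg_right hsum hmp.le).trans ?_
  set P := (del n + eta n) ^ n with hP
  set Q := (1 / 21 + eta n) ^ n with hQ
  set ac := ((alive n Xh y).card : ℝ) with hac
  have hP0 : 0 ≤ P := pow_nonneg (by have := L.eta_pos; have := L.del_pos; positivity) n
  have hQ0 : 0 ≤ Q := pow_nonneg (by have := L.eta_pos; positivity) n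
  have hgm : 0 ≤ gmax n := by have := L.gz_one_le; unfold gmax; positivity
  have hac2 : ac * (Xh.card : ℝ) ≤ dst n * ncap n :=
    mul_le_mul c1 hcard (Nat.cast_nonneg _) ((Nat.cast_nonneg _).trans c1)
  have hE := (Real.exp_pos (trc n)).le
  have hne0 : 0 ≤ dst n * ncap n := le_trans (by positivity) hac2
  calc ((Nr.card : ℝ) * Real.exp (trc n) + (Sr.card : ℝ) * 3) * mesh n ^ n
      = Real.exp (trc n) * ((Nr.card : ℝ) * mesh n ^ n) + 3 * ((Sr.card : ℝ) * mesh n ^ n) := by ring
    _ ≤ Real.exp (trc n) * (ac * Xh.card * (P * ballVol n))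
        + 3 * (ac * gmax n * Xh.card * (Q * ballVol n)) := by
          exact add_le_add (mul_le_mul_of_nonneg_left hN hE)
            (mul_le_mul_of_nonneg_left hS (by norm_num))
    _ = ac * Xh.card * ((Real.exp (trc n) * P + 3 * gmax n * Q) * ballVol n) := by ring
    _ ≤ dst n * ncap n * ((Real.exp (trc n) * P + 3 * gmax n * Q) * ballVol n) :=
          mul_le_mul_of_nonneg_right hac2 (by positivity)
    _ = corr n * (ballVol n / 2) := by rw [corr]; ring
    _ ≤ corr n * ((Y.card : ℝ) * mesh n ^ n) :=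
          mul_le_mul_of_nonneg_left hvol (corr_pos N).le
    _ = corr n * Y.card * mesh n ^ n := by ring

theorem scaled_le_one (N : MainNum n) {a : Fin M → E n} {Xh : Finset (E n)}
    (hXh : Xh ⊆ gridBox n) (hcard : (Xh.card : ℝ) ≤ ncap n)
    (hvol : ballVol n / 2 ≤ ((goodY n (dst n) Xh).card : ℝ) * mesh n ^ n) (y : E n)
    (s : Finset (Fin M)) : scaled a Xh y s ≤ 1 := by
  have L := N.atoms.large
  have hV := ballVol_pos (n := n)
  have hmp := pow_pos (mesh_pos L.npos) n
  set Y := goodY n (dst n) Xh with hYd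
  set q : ℝ := 1 / (4 * corr n) / (Y.card : ℝ) with hq
  have hcp := corr_pos N
  have hYpos : 0 < (Y.card : ℝ) := by
    by_contra h
    push Not at h
    nlinarith
  have hq0 : 0 ≤ q := by positivity
  have hle1 : q * Real.exp (trc n) ≤ 1 := by
    have hbase : mesh n ^ n ≤ (del n + eta n) ^ n * ballVol n := by
      have h := grid_count_le L.npos {rnd (0 : E n)} (fun g hg => by
        rw [mem_singleton] at hg; exact hg ▸ isGrid_rnd _) (rnd (0 : E n)) L.del_pos.le
        (fun g hg => by rw [mem_singleton] at hg; subst hg; simpa using L.del_pos.le)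
      rw [card_singleton, Nat.cast_one, one_mul] at h
      refine h.trans (mul_le_mul_of_nonneg_right (pow_le_pow_left₀ ?_ ?_ n) hV.le)
      · have := L.del_pos; have := mesh_pos L.npos; positivity
      · linarith [L.mesh_small, mul_nonneg L.npos'.le (mesh_pos L.npos).le]
    have hd : 1 ≤ dst n * ncap n := by
      have h1 := N.thr_one
      have h3 : (1:ℝ) ≤ 3 ^ n := one_le_pow₀ (by norm_num)
      unfold dst ncap
      nlinarith [mul_le_mul h1 h1 zero_le_one (by linarith)]
    have hc1 : 2 * (dst n * ncap n) * (Real.exp (trc n) * (del n + eta n) ^ n) ≤ corr n := by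
      unfold corr
      have h2 : 0 ≤ 3 * gmax n * (1 / 21 + eta n) ^ n := by
        have := L.gz_one_le; have := L.eta_pos; unfold gmax; positivity
      nlinarith [mul_nonneg (zero_le_one.trans hd) h2]
    have key : Real.exp (trc n) * mesh n ^ n ≤ 4 * corr n * (Y.card * mesh n ^ n) := by
      have hE := (Real.exp_pos (trc n)).le
      have hP0 : 0 ≤ (del n + eta n) ^ n := pow_nonneg (by have := L.eta_pos; have := L.del_pos; positivity) n
      calc Real.exp (trc n) * mesh n ^ n ≤ Real.exp (trc n) * ((del n + eta n) ^ n * ballVol n) :=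
            mul_le_mul_of_nonneg_left hbase hE
        _ ≤ (dst n * ncap n) * (Real.exp (trc n) * ((del n + eta n) ^ n * ballVol n)) :=
            le_mul_of_one_le_left (by positivity) hd
        _ = 2 * (dst n * ncap n) * (Real.exp (trc n) * (del n + eta n) ^ n) * (ballVol n / 2) := by ring
        _ ≤ corr n * (ballVol n / 2) := mul_le_mul_of_nonneg_right hc1 (by linarith)
        _ ≤ 4 * corr n * (Y.card * mesh n ^ n) :=
            mul_le_mul (by linarith) hvol (by linarith) (by linarith)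
    rw [hq, div_mul_eq_mul_div, div_le_one hYpos, div_mul_eq_mul_div, one_mul, div_le_iff₀ (by linarith)]
    refine le_of_mul_le_mul_right ?_ hmp
    linarith
  exact (mul_le_mul_of_nonneg_left (min_le_right _ _) hq0).trans hle1

theorem fail_prob (N : MainNum n) {a : Fin M → E n} {Xh : Finset (E n)} (hXh : Xh ⊆ gridBox n)
    (GA : GoodAtoms n M a) (hcard : (Xh.card : ℝ) ≤ ncap n)
    (hvol : ballVol n / 2 ≤ ((goodY n (dst n) Xh).card : ℝ) * mesh n ^ n) :
    Ex (lam n) univ (fun s => ∏ y ∈ goodY n (dst n) Xh, (1 - scaled a Xh y s))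
      ≤ Real.exp (-(1 / (16 * corr n))) := by
  classical
  have L := N.atoms.large
  have hV := ballVol_pos (n := n)
  have hmp := pow_pos (mesh_pos L.npos) n
  set Y := goodY n (dst n) Xh with hYd
  set q : ℝ := 1 / (4 * corr n) / (Y.card : ℝ) with hq
  have hcp := corr_pos N
  have hYpos : 0 < (Y.card : ℝ) := by
    by_contra h
    push Not at h
    nlinarith
  have hq0 : 0 ≤ q := by positivity
  have hsc : ∀ y s, scaled a Xh y s = q * wt a Xh y s := fun y s => rfl
  have h0 : ∀ y ∈ Y, ∀ s, 0 ≤ scaled a Xh y s := fun y _ s => by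
    rw [hsc]; exact mul_nonneg hq0 (wt_nonneg L a Xh y s)
  have h1 : ∀ y ∈ Y, ∀ s, scaled a Xh y s ≤ 1 := fun y _ s => by
    exact scaled_le_one N hXh hcard hvol y s
  have hm : ∀ y ∈ Y, Monotone (scaled a Xh y) := fun y _ s t hst => by
    rw [hsc, hsc]
    exact mul_le_mul_of_nonneg_left (min_le_min (wit_mono L.lam_pos.le _ hst) le_rfl) hq0
  have hA : ∀ y ∈ Y, ∀ j ∉ (alive n Xh y).biUnion (fun x => cutSet a (y - x)), ∀ s,
      scaled a Xh y (insert j s) = scaled a Xh y s := by
    intro y _ j hj s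
    rw [hsc, hsc, wt, wt, wit_insert]
    intro C hC hjC
    obtain ⟨x, hx, rfl⟩ := mem_caps.1 hC
    exact hj (mem_biUnion.2 ⟨x, hx, hjC⟩)
  refine (janson L.lam_pos.le L.lam_le_one Y (fun y => scaled a Xh y) _ h0 h1 hm hA).trans
    (Real.exp_le_exp.2 ?_)
  have hS : q * (1 / 2) * Y.card ≤ ∑ y ∈ Y, Ex (lam n) univ (scaled a Xh y) := by
    rw [mul_comm _ ((Y.card : ℝ)), ← nsmul_eq_mul, ← sum_const]
    refine sum_le_sum fun y hy => ?_
    rw [ex_congr (hsc y), ex_const_mul]
    refine mul_le_mul_of_nonneg_left ?_ hq0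
    obtain ⟨-, n1, -, hB⟩ := good_facts hXh L GA hy
    refine ex_min_wit L.lam_pos L.lam_le_one _ n1 (B := 3004 * dst n) ?_ hB le_rfl
    have := N.thr_one
    unfold trc dst; linarith
  have hP : ∑ y ∈ Y, ∑ y' ∈ Y, (if Disjoint ((alive n Xh y).biUnion (fun x => cutSet a (y - x)))
          ((alive n Xh y').biUnion (fun x => cutSet a (y' - x))) then 0
      else Ex (lam n) univ (fun s => scaled a Xh y s * scaled a Xh y' s))
      ≤ q * q * (corr n * Y.card) * Y.card := by
    rw [mul_comm _ ((Y.card : ℝ)), ← nsmul_eq_mul, ← sum_const]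
    refine sum_le_sum fun y hy => ?_
    have hd := (div_le_iff₀ hYpos).1 (dep_sum N hXh GA hcard hvol hy)
    refine le_trans (le_of_eq ?_) (mul_le_mul_of_nonneg_left hd (mul_nonneg hq0 hq0))
    rw [mul_sum]
    refine sum_congr rfl fun y' _ => ?_
    split_ifs
    · ring
    · rw [← ex_const_mul]
      exact ex_congr fun s => by rw [hsc, hsc]; ring
  have e1 : q * (1 / 2) * Y.card = 1 / (8 * corr n) := by rw [hq]; field_simp; ring
  have e2 : q * q * (corr n * Y.card) * Y.card = 1 / (16 * corr n) := by rw [hq]; field_simp; ring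
  have e3 : 1 / (8 * corr n) = 2 * (1 / (16 * corr n)) := by field_simp; ring
  linarith

theorem subsets_count {α : Type*} [DecidableEq α] (S : Finset α) (k : ℕ) :
    (S.powerset.filter (fun T => T.card ≤ k)).card ≤ (k + 1) * (S.card + 1) ^ k := by
  refine (card_le_card (t := (range (k + 1)).biUnion (fun j => S.powersetCard j)) ?_).trans ?_
  · intro T hT
    obtain ⟨h1, h2⟩ := mem_filter.1 hT
    exact mem_biUnion.2 ⟨T.card, mem_range.2 (Nat.lt_succ_of_le h2),
      mem_powersetCard.2 ⟨mem_powerset.1 h1, rfl⟩⟩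
  · refine card_biUnion_le.trans ?_
    refine (sum_le_sum (g := fun _ => (S.card + 1) ^ k) fun j hj => ?_).trans (by simp)
    rw [card_powersetCard]
    exact ((Nat.choose_le_pow S.card j).trans (Nat.pow_le_pow_left (Nat.le_succ _) j)).trans
      (Nat.pow_le_pow_right (Nat.succ_pos _) (Nat.lt_succ_iff.1 (mem_range.1 hj)))

/-- The body: in large dimension some cap cut ball has no thin covering. -/
theorem exists_body (N : MainNum n) :
    ∃ K : Set (E n), IsCompact K ∧ Convex ℝ K ∧ (interior K).Nonempty ∧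
      ballVol n / 4 ≤ volume.real K ∧
      ∀ X : Set (E n), (∀ r, (X ∩ closedBall 0 r).Finite) → K + X = Set.univ → ∀ R0 : ℝ,
        ∃ R, R0 ≤ R ∧ 4 * thr n / ballVol n * (2 * R) ^ n < ((X ∩ cube n R).ncard : ℝ) := by
  classical
  have L := N.atoms.large
  have hV := ballVol_pos (n := n)
  obtain ⟨M, a, GA⟩ := exists_goodAtoms N.atoms
  obtain ⟨e0, he0⟩ : ∃ e : E n, ‖e‖ = 1 := ⟨EuclideanSpace.single ⟨0, L.npos⟩ 1, by simp⟩
  set v0 := volume.real (cap e0 cc) with hv0
  have hv0p : 0 < v0 := cap_pos e0 he0 (by norm_num [cc]) (by norm_num [cc])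
  let Adm := (gridBox n).powerset.filter (fun Xh => (Xh.card : ℝ) ≤ ncap n ∧
    ballVol n / 2 ≤ ((goodY n (dst n) Xh).card : ℝ) * mesh n ^ n)
  let F : Finset (Fin M) → ℝ := fun s => (4 * v0 / (3 * ballVol n)) * (s.card : ℝ)
    + ∑ Xh ∈ Adm, ∏ y ∈ goodY n (dst n) Xh, (1 - scaled a Xh y s)
  have hAdm : (Adm.card : ℝ) * Real.exp (-(1 / (16 * corr n))) ≤ 1 / 3 := by
    refine le_trans (mul_le_mul_of_nonneg_right ?_ (Real.exp_pos _).le) N.union
    have hsub : Adm ⊆ (gridBox n).powerset.filter (fun T => T.card ≤ ⌊ncap n⌋₊) := fun T hT =>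
      mem_filter.2 ⟨(mem_filter.1 hT).1, Nat.le_floor (mem_filter.1 hT).2.1⟩
    refine (Nat.cast_le.2 ((card_le_card hsub).trans (subsets_count _ _))).trans ?_
    push_cast
    set k := ⌊ncap n⌋₊ with hk
    have hn := L.npos'
    have hk' : (k : ℝ) ≤ ncap n := Nat.floor_le (by
      have := zero_le_one.trans N.thr_one; unfold ncap; positivity)
    have hbox : ((gridBox n).card : ℝ) + 1 ≤ Real.exp ((n : ℝ) * (10 + 4 * Real.log n)) := by
      have h1 : ((gridBox n).card : ℝ) ≤ ((9 * (n:ℝ) ^ 4) ^ n) := by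
        calc ((gridBox n).card : ℝ) ≤ (((9 * n ^ 4) ^ n : ℕ) : ℝ) := by
              exact_mod_cast card_gridBox L.npos
          _ = _ := by push_cast; ring
      have h2 : (9 * (n:ℝ) ^ 4) ^ n + 1 ≤ (10 * (n:ℝ) ^ 4) ^ n := by
        have hb : (1:ℝ) ≤ (n:ℝ) ^ 4 := one_le_pow₀ (by linarith [L.ge'])
        have h3 := pow_add_pow_le (x := 9 * (n:ℝ) ^ 4) (y := 1) (by positivity) zero_le_one L.npos.ne'
        rw [one_pow] at h3
        exact h3.trans (pow_le_pow_left₀ (by positivity) (by linarith) n)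
      refine (add_le_add h1 le_rfl).trans (h2.trans ?_)
      rw [Real.exp_nat_mul]
      refine pow_le_pow_left₀ (by positivity) ?_ n
      rw [Real.exp_add, show (4:ℝ) * Real.log n = ((4:ℕ):ℝ) * Real.log n by norm_num,
        Real.exp_nat_mul, Real.exp_log hn]
      refine mul_le_mul_of_nonneg_right ?_ (by positivity)
      linarith [Real.add_one_le_exp (10:ℝ)]
    refine (mul_le_mul (Real.add_one_le_exp (k:ℝ))
      (pow_le_pow_left₀ (by positivity) hbox k) (by positivity) (Real.exp_pos _).le).trans ?_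
    rw [← Real.exp_nat_mul, ← Real.exp_add]
    refine Real.exp_le_exp.2 ?_
    have hlog : Real.log n ≤ n := Real.log_le_self hn.le
    have h3 : (k:ℝ) + k * ((n:ℝ) * (10 + 4 * Real.log n)) ≤ k * (16 * (n:ℝ) ^ 2) := by
      nlinarith [mul_le_mul_of_nonneg_left
        (show 1 + (n:ℝ) * (10 + 4 * Real.log n) ≤ 16 * (n:ℝ) ^ 2 by nlinarith [L.ge'])
        (Nat.cast_nonneg (α := ℝ) k)]
    refine h3.trans ((mul_le_mul_of_nonneg_right hk' (by positivity)).trans ?_)
    unfold ncap
    have h4 : 24 * thr n * (16 * (n:ℝ) ^ 2) ≤ (n:ℝ) ^ 5 := by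
      have h5 : (384:ℝ) ≤ n := by exact_mod_cast N.big
      have := mul_le_mul_of_nonneg_right N.thr_sq (sq_nonneg (n:ℝ))
      nlinarith [mul_le_mul_of_nonneg_right h5 (show (0:ℝ) ≤ (n:ℝ) ^ 4 by positivity)]
    have := mul_le_mul_of_nonneg_right h4 (show (0:ℝ) ≤ 3 ^ n by positivity)
    linarith
  have hEF : Ex (lam n) univ F < 1 := by
    simp only [F]
    rw [ex_add, ex_const_mul, ex_card, ex_sum, card_univ, Fintype.card_fin]
    have h1 : 4 * v0 / (3 * ballVol n) * (lam n * M) ≤ 4 / 9 := by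
      rw [div_mul_eq_mul_div, div_le_iff₀ (by positivity)]
      have := GA.lam_M e0 he0
      rw [← hv0] at this
      linarith
    have h2 := sum_le_sum (s := Adm) fun Xh hXh => by
      obtain ⟨h1, h2, h3⟩ := mem_filter.1 hXh
      exact fail_prob N (mem_powerset.1 h1) GA h2 h3
    rw [sum_const, nsmul_eq_mul] at h2
    linarith
  obtain ⟨s, -, hs⟩ := exists_le_ex L.lam_pos.le L.lam_le_one F (U := univ)
  have hF : F s < 1 := hs.trans_lt hEF
  let K : Set (E n) := closedBall (0 : E n) 1 ∩ ⋂ j ∈ s, {z | inner ℝ (a j) z ≤ cc}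
  have hclosed : IsClosed (⋂ j ∈ s, {z : E n | inner ℝ (a j) z ≤ cc}) :=
    isClosed_biInter fun j _ => isClosed_le (continuous_const.inner continuous_id) continuous_const
  have hKc : IsCompact K := (isCompact_closedBall _ _).inter_right hclosed
  have hball : ball (0 : E n) cc ⊆ K := by
    intro z hz
    rw [mem_ball, dist_zero_right] at hz
    refine ⟨?_, Set.mem_iInter₂.2 fun j _ => ?_⟩
    · rw [mem_closedBall, dist_zero_right]
      have : cc ≤ 1 := by norm_num [cc]
      linarith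
    · exact (real_inner_le_norm _ _).trans
        ((mul_le_of_le_one_left (norm_nonneg z) (GA.norm_le j)).trans hz.le)
  refine ⟨K, hKc, (convex_closedBall _ _).inter (convex_iInter₂ fun j _ =>
    convex_halfSpace_le (innerSL ℝ (a j)).toLinearMap.isLinear cc), ⟨0, ?_⟩, ?_, ?_⟩
  · exact interior_maximal hball isOpen_ball (mem_ball_self (by norm_num [cc]))
  · have hcov : closedBall (0 : E n) 1 ⊆ K ∪ ⋃ j ∈ s, cap (‖a j‖⁻¹ • a j) cc ∩ {_z | a j ≠ 0} := by
      intro z hz
      by_cases hk : z ∈ ⋂ j ∈ s, {z : E n | inner ℝ (a j) z ≤ cc}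
      · exact Or.inl ⟨hz, hk⟩
      · simp only [Set.mem_iInter, not_forall] at hk
        obtain ⟨j, hj, hjz⟩ := hk
        simp only [Set.mem_ofPred_eq, not_le] at hjz
        have hne : a j ≠ 0 := fun h => by
          rw [h, inner_zero_left] at hjz; norm_num [cc] at hjz
        refine Or.inr (Set.mem_iUnion₂.2 ⟨j, hj, ⟨?_, ?_⟩, hne⟩)
        · simpa using hz
        · have hpos := norm_pos_iff.2 hne
          rw [real_inner_smul_left, ← div_eq_inv_mul, le_div_iff₀ hpos]
          refine le_trans ?_ hjz.le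
          exact mul_le_of_le_one_right (by norm_num [cc]) (GA.norm_le j)
    have hfin : volume (⋃ j ∈ s, cap (‖a j‖⁻¹ • a j) cc ∩ {_z | a j ≠ 0}) < ⊤ :=
      lt_of_le_of_lt (measure_mono (Set.iUnion₂_subset fun j _ =>
        Set.inter_subset_left.trans (cap_subset_ball _ _))) measure_closedBall_lt_top
    have h1 := measureReal_mono hcov (measure_union_lt_top hKc.measure_lt_top hfin).ne
    have h2 := h1.trans (measureReal_union_le K _)
    have h3 : volume.real (⋃ j ∈ s, cap (‖a j‖⁻¹ • a j) cc ∩ {_z | a j ≠ 0}) ≤ s.card * v0 := by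
      refine (measureReal_biUnion_finset_le s _).trans ?_
      rw [← nsmul_eq_mul, ← sum_const]
      refine sum_le_sum fun j _ => ?_
      by_cases hne : a j = 0
      · simp [hne, hv0p.le]
      · refine (measureReal_mono Set.inter_subset_left (cap_finite _ _).ne).trans (le_of_eq ?_)
        exact cap_rot _ _ ((norm_smul_inv_norm hne).trans he0.symm) _
    have hprod : 0 ≤ ∑ Xh ∈ Adm, ∏ y ∈ goodY n (dst n) Xh, (1 - scaled a Xh y s) := by
      refine sum_nonneg fun Xh hXh => prod_nonneg fun y hy => ?_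
      obtain ⟨h1, h2, h3⟩ := mem_filter.1 hXh
      have hq : scaled a Xh y s ≤ 1 := scaled_le_one N (mem_powerset.1 h1) h2 h3 y s
      linarith
    have h4 : 4 * v0 / (3 * ballVol n) * (s.card : ℝ) < 1 := by simp only [F] at hF; linarith
    rw [div_mul_eq_mul_div, div_lt_one (by positivity)] at h4
    have h5 : volume.real (closedBall (0 : E n) 1) = ballVol n := rfl
    linarith
  · intro X hX hcov R0
    by_contra hc
    push Not at hc
    obtain ⟨y0, Xh, hXh, hcard, hvol, hnear⟩ := exists_window L X hX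
      (lt_of_lt_of_le one_pos N.thr_one) N.thr_sq hc
    have hmem : Xh ∈ Adm := mem_filter.2 ⟨mem_powerset.2 hXh, hcard, hvol⟩
    have hex : ∃ y ∈ goodY n (dst n) Xh, scaled a Xh y s ≠ 0 := by
      by_contra hall
      push Not at hall
      have h1 : ∏ y ∈ goodY n (dst n) Xh, (1 - scaled a Xh y s) = 1 :=
        prod_eq_one fun y hy => by rw [hall y hy, sub_zero]
      have hnn : ∀ Z ∈ Adm, 0 ≤ ∏ y ∈ goodY n (dst n) Z, (1 - scaled a Z y s) := by
        intro Z hZ
        obtain ⟨g1, g2, g3⟩ := mem_filter.1 hZ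
        refine prod_nonneg fun y _ => ?_
        linarith [scaled_le_one N (mem_powerset.1 g1) g2 g3 (a := a) y s]
      have h2 := single_le_sum hnn hmem
      simp only [F] at hF
      have : 0 ≤ 4 * v0 / (3 * ballVol n) * (s.card : ℝ) := by positivity
      linarith
    obtain ⟨y, hy, hne⟩ := hex
    have hw : wit (lam n) (caps a Xh y) s ≠ 0 := by
      intro h0
      apply hne
      simp [scaled, wt, h0, (Real.exp_pos (trc n)).le]
    have hin : y + y0 ∈ K + X := hcov ▸ Set.mem_univ _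
    obtain ⟨k, hk, x, hx, hkx⟩ := Set.mem_add.1 hin
    have hy1 : ‖y‖ ≤ 1 + eta n := (mem_filter.1 hy).2.1
    have hk1 : ‖k‖ ≤ 1 := by simpa using hk.1
    have e : x - y0 = y - k := by
      rw [eq_sub_iff_add_eq]
      have : x + k = y + y0 := by rw [add_comm]; exact hkx
      calc x - y0 + k = x + k - y0 := by abel
        _ = y := by rw [this]; abel
    have hd : ‖x - y0‖ ≤ 3 := by
      rw [e]; linarith [norm_sub_le y k, L.eta_small]
    have hr := norm_rnd_sub_le L.npos (x - y0)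
    have hms := L.mesh_small
    have hal : rnd (x - y0) ∈ alive n Xh y := by
      refine mem_filter.2 ⟨hnear x hx hd, ?_⟩
      have h1 : y - rnd (x - y0) = k - (rnd (x - y0) - (x - y0)) := by rw [e]; abel
      rw [h1]
      linarith [norm_sub_le k (rnd (x - y0) - (x - y0)), L.eta_pos]
    obtain ⟨j, hj, hjs⟩ := wit_ne_zero _ s hw _ (mem_caps.2 ⟨_, hal, rfl⟩)
    simp only [cutSet, mem_filter, mem_univ, true_and] at hj
    have hjk : inner ℝ (a j) k ≤ cc := Set.mem_iInter₂.1 hk.2 j hjs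
    have h1 : y - rnd (x - y0) = k - (rnd (x - y0) - (x - y0)) := by rw [e]; abel
    rw [h1, inner_sub_right] at hj
    have h2 := abs_le.1 ((abs_real_inner_le_norm (a j) (rnd (x - y0) - (x - y0))).trans
      (mul_le_of_le_one_left (norm_nonneg _) (GA.norm_le j)))
    linarith [L.eta_pos, h2.1]

end Vale.Agent.P230
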