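import Mathlib
import Vale.Agent.P230.Main
import Vale.Agent.P230.Defs

/-!
From the thin configuration statement to both covering densities.
-/

namespace Vale.Agent.P230

open MeasureTheory Metric Filter Pointwise Topology
open scoped ENNReal

variable {n : ℕ}

/-- The lattice density bounds the translative one from above. -/
theorem thetaT_le_thetaL (hn : 0 < n) (K : Set (E n)) : thetaT K ≤ thetaL K := by
  refine le_iInf fun L => le_iInf fun hd => le_iInf fun hz => le_iInf fun hcov => ?_
  haveI := hd
  haveI := hz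
  set b := Module.Free.chooseBasis ℤ L
  set bR := b.ofZLatticeBasis ℝ with hbR
  have hspan : Submodule.span ℤ (Set.range bR) = L := b.ofZLatticeBasis_span ℝ
  have hfin : ∀ s : Set (E n), Bornology.IsBounded s → ((L : Set (E n)) ∩ s).Finite := by
    intro s hs
    rw [← hspan, Set.inter_comm]
    exact ZSpan.setFinite_inter bR hs
  set F := ZSpan.fundamentalDomain bR with hF
  have hFm : MeasurableSet F := ZSpan.fundamentalDomain_measurableSet bR
  obtain ⟨r0, hr0⟩ := (ZSpan.fundamentalDomain_isBounded bR).subset_closedBall (0 : E n)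
  set r := max r0 0 with hr
  have hcv : ZLattice.covolume L = volume.real F :=
    ZLattice.covolume_eq_measure_fundamentalDomain L volume
      (ZLattice.isAddFundamentalDomain b volume)
  set κ := ZLattice.covolume L with hκ
  have hκ0 : 0 < κ := ZLattice.covolume_pos L
  have hFv : volume F = ENNReal.ofReal κ := by
    rw [hcv, measureReal_def, ENNReal.ofReal_toReal
      (ZSpan.fundamentalDomain_isBounded bR).measure_lt_top.ne]
  have hcount : ∀ R, 0 ≤ R →
      (((L : Set (E n)) ∩ cube n R).ncard : ℝ) * κ ≤ (2 * (R + r)) ^ n := by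
    intro R hR
    have hR' : 0 ≤ R + r := add_nonneg hR (le_max_right _ _)
    have hb : Bornology.IsBounded (cube n R) := by
      refine (isBounded_iff_subset_closedBall (0 : E n)).2 ⟨(n : ℝ) * R + 1, fun x hx => ?_⟩
      rw [mem_closedBall, dist_zero_right, EuclideanSpace.norm_eq]
      refine Real.sqrt_le_iff.2 ⟨by positivity, ?_⟩
      calc ∑ i, ‖x i‖ ^ 2 ≤ ∑ _i : Fin n, R ^ 2 :=
            Finset.sum_le_sum fun i _ => pow_le_pow_left₀ (norm_nonneg _) (hx i) 2
        _ = n * R ^ 2 := by simp
        _ ≤ _ := by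
            have h1 : (1 : ℝ) ≤ n := by exact_mod_cast hn
            nlinarith [mul_nonneg (mul_nonneg (Nat.cast_nonneg (α := ℝ) n) (sub_nonneg.2 h1))
              (sq_nonneg R), mul_nonneg (Nat.cast_nonneg (α := ℝ) n) hR]
    set S := (hfin _ hb).toFinset with hS
    have hSc : ((L : Set (E n)) ∩ cube n R).ncard = S.card := Set.ncard_eq_toFinset_card _ _
    have hdisj : (S : Set (E n)).PairwiseDisjoint (fun v => (fun x => x - v) ⁻¹' F) := by
      intro v hv w hw hne
      rw [Function.onFun, Set.disjoint_left]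
      intro x hxv hxw
      apply hne
      have hv' : v ∈ Submodule.span ℤ (Set.range bR) := by
        rw [hspan]; exact ((hfin _ hb).mem_toFinset.1 hv).1
      have hw' : w ∈ Submodule.span ℤ (Set.range bR) := by
        rw [hspan]; exact ((hfin _ hb).mem_toFinset.1 hw).1
      have e1 : ZSpan.fract bR x = x - v := by
        have h := ZSpan.fract_zSpan_add bR (x - v) hv'
        rwa [ZSpan.fract_eq_self.2 hxv, add_sub_cancel] at h
      have e2 : ZSpan.fract bR x = x - w := by
        have h := ZSpan.fract_zSpan_add bR (x - w) hw'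
        rwa [ZSpan.fract_eq_self.2 hxw, add_sub_cancel] at h
      exact sub_right_injective (e1.symm.trans e2)
    have hsub : (⋃ v ∈ S, (fun x => x - v) ⁻¹' F) ⊆ cube n (R + r) := by
      intro x hx i
      obtain ⟨v, hv, hxv⟩ := Set.mem_iUnion₂.1 hx
      have h1 := hr0 hxv
      rw [mem_closedBall, dist_zero_right] at h1
      have h2 := (abs_coord_le_norm (x - v) i).trans (h1.trans (le_max_left r0 0))
      have h3 := ((hfin _ hb).mem_toFinset.1 hv).2 i
      have e : x i = v i + (x - v) i := by simp
      rw [e]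
      exact (abs_add_le _ _).trans (add_le_add h3 h2)
    have h := measure_mono (μ := (volume : Measure (E n))) hsub
    rw [measure_biUnion_finset hdisj (fun v _ => (measurable_id.sub_const v) hFm),
      vol_cube hR'] at h
    have e : ∀ v ∈ S, volume ((fun x => x - v) ⁻¹' F) = ENNReal.ofReal κ := by
      intro v _
      rw [show (fun x : E n => x - v) = fun x => x + -v from funext fun x => sub_eq_add_neg x v,
        measure_preimage_add_right, hFv]
    rw [Finset.sum_congr rfl e, Finset.sum_const, nsmul_eq_mul, ← ENNReal.ofReal_natCast,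
      ← ENNReal.ofReal_mul (Nat.cast_nonneg _),
      ENNReal.ofReal_le_ofReal_iff (by positivity)] at h
    rwa [hSc]
  refine iInf₂_le_of_le (L : Set (E n)) hfin (iInf_le_of_le hcov ?_)
  rw [div_eq_mul_inv, ← ENNReal.ofReal_inv_of_pos hκ0]
  refine mul_le_mul' le_rfl ?_
  have hlim : Tendsto (fun R : ℝ => ((1 + r / R) ^ n) * κ⁻¹) atTop (𝓝 κ⁻¹) := by
    have := ((((tendsto_const_nhds (x := r)).div_atTop tendsto_id).const_add 1).pow n).mul_const κ⁻¹
    simpa using this
  have hlim' := (ENNReal.tendsto_ofReal hlim)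
  rw [← hlim'.limsup_eq]
  refine limsup_le_limsup ?_
  filter_upwards [eventually_gt_atTop (0 : ℝ)] with R hR
  rw [← ENNReal.ofReal_natCast, ← ENNReal.ofReal_div_of_pos (by positivity)]
  refine ENNReal.ofReal_le_ofReal ?_
  rw [div_le_iff₀ (by positivity)]
  have h := hcount R hR.le
  have e : (1 + r / R) ^ n * κ⁻¹ * (2 * R) ^ n = (2 * (R + r)) ^ n / κ := by
    rw [mul_right_comm, ← mul_pow, div_eq_mul_inv _ κ]
    congr 2
    field_simp
  rw [e, le_div_iff₀ hκ0]
  exact h

/-- In large dimension some convex body has translative covering density at least `thr n`. -/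
theorem exists_thetaT_ge (N : MainNum n) :
    ∃ K : Set (E n), IsCompact K ∧ Convex ℝ K ∧ (interior K).Nonempty ∧
      ENNReal.ofReal (thr n) ≤ thetaT K := by
  obtain ⟨K, hc, hconv, hint, hvol, hX⟩ := exists_body N
  refine ⟨K, hc, hconv, hint, le_iInf₂ fun X hfin => le_iInf fun hcov => ?_⟩
  by_contra hlt
  push Not at hlt
  have hV := ballVol_pos (n := n)
  have hvK : ENNReal.ofReal (ballVol n / 4) ≤ volume K := by
    rw [← ENNReal.ofReal_toReal hc.measure_lt_top.ne]
    exact ENNReal.ofReal_le_ofReal hvol
  set ls := limsup (fun R : ℝ =>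
    ((X ∩ cube n R).ncard : ℝ≥0∞) / ENNReal.ofReal ((2 * R) ^ n)) atTop with hls
  have h1 : ENNReal.ofReal (ballVol n / 4) * ls < ENNReal.ofReal (thr n) :=
    lt_of_le_of_lt (mul_le_mul' hvK le_rfl) hlt
  have h2 : ls < ENNReal.ofReal (4 * thr n / ballVol n) := by
    by_contra h
    push Not at h
    have h3 := mul_le_mul' (le_refl (ENNReal.ofReal (ballVol n / 4))) h
    rw [← ENNReal.ofReal_mul (by positivity),
      show ballVol n / 4 * (4 * thr n / ballVol n) = thr n by field_simp] at h3
    exact lt_irrefl _ (h3.trans_lt h1)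
  obtain ⟨R0, hR0⟩ := eventually_atTop.1 (eventually_lt_of_limsup_lt h2)
  obtain ⟨R, hR, hbig⟩ := hX X (fun r => hfin _ isBounded_closedBall) hcov (max R0 1)
  have hRp : 0 < R := lt_of_lt_of_le one_pos ((le_max_right _ _).trans hR)
  have h4 := hR0 R ((le_max_left _ _).trans hR)
  rw [← ENNReal.ofReal_natCast, ← ENNReal.ofReal_div_of_pos (by positivity),
    ENNReal.ofReal_lt_ofReal_iff (by have := N.thr_one; positivity), div_lt_iff₀ (by positivity)] at h4
  exact lt_irrefl _ (h4.trans hbig)

end Vale.Agent.P230
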